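import Vale.Agent.P196.Full.Amenable.Law.Setup

/-!
# P196: almost invariant laws on lamps from sparseness

`linearMean_of_sparse`: at a scale where the ratio of consecutive widths is large, the random sums
of cells are almost invariant under finitely many local permutations and exactly invariant under
adding finitely many lamps.
-/

open Finset

namespace Vale.Agent.P196.Full.Law

variable {X : Type} [TopologicalSpace X] {n : ℕ} {S : Sys X}

/-- A local permutation and its inverse as tables of displacements and colours. -/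
theorem exists_tables [CompactSpace X] [T2Space X] {g : Equiv.Perm (Pt X n)} (hg : S.IsLocal g) :
    ∃ v w : Pt X n → Lat × Fin n, IsLocallyConstant v ∧ IsLocallyConstant w ∧
      (∀ p, g p = (S.sh (v p).1 p.1, (v p).2)) ∧
      ∀ p, g.symm p = (S.sh (w p).1 p.1, (w p).2) := by
  obtain ⟨d, hd, hc, hgd⟩ := id hg
  have hcont : Continuous g.symm := (hg.continuous.homeoOfEquivCompactToT2).symm.continuous
  refine ⟨fun p => (d p, (g p).2), fun p => (-d (g.symm p), (g.symm p).2), hd.prodMk hc,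
    ((hd.comp_continuous hcont).comp (fun u => -u)).prodMk
      ((IsLocallyConstant.iff_continuous _).2 (continuous_snd.comp hcont)),
    fun p => Prod.ext (hgd p) rfl, fun p => Prod.ext ?_ rfl⟩
  have h := hgd (g.symm p)
  rw [Equiv.apply_symm_apply] at h
  show (g.symm p).1 = _
  rw [h, S.sh_neg_cancel]

/-- A displacement in the coordinates of an axis. -/
def toAx (ax : Bool) (v : Lat × Fin n) : Lat × Fin n := ((vAlong ax v.1, vAcross ax v.1), v.2)

variable (T : Tower S) (ax : Bool)

/-- No fault line: nothing to do. -/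
theorem linearMean_of_empty (h : T.fault ax = ∅) : T.LinearMean ax n := by
  intro gs _ fs hfs ε hε
  have hb : ∀ f ∈ fs, f = ∅ := fun f hf => by
    obtain ⟨K, B, -, rfl⟩ := hfs f hf
    ext p
    simp [Tower.band, h]
  refine ⟨Finsupp.single ∅ 1, fun A => ?_, ?_, fun A hA => ?_, fun g _ => ?_, fun f hf => ?_⟩
  · classical
    simp only [Finsupp.coe_zero, Pi.zero_apply, Finsupp.single_apply]
    split_ifs <;> norm_num
  · rw [Norm1.single, abs_one]
  · rw [Finsupp.support_single _ one_ne_zero, mem_singleton] at hA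
    rw [hA]
    exact T.isLamp_empty ax
  · rw [Finsupp.mapDomain_single, Set.image_empty, sub_self, Norm1.zero]
    exact hε
  · rw [Finsupp.mapDomain_single, hb f hf, symmDiff_self, Set.bot_eq_empty, sub_self, Norm1.zero]
    exact hε

/-- A bound for the first energy term. -/
theorem base_term_le {n R W c : ℕ} {δ : ℝ} (hR : R ≤ W) (hW : 0 < W) (hc : 1 ≤ c)
    (hδ : 14 * (n : ℝ) * (R : ℝ) ^ 2 ≤ δ * c) :
    ((2 * (W * ((2 * (2 * (c * W) + R) + 1) * n)) : ℕ) : ℝ) * ((R : ℝ) ^ 2 / ((c * W : ℕ) : ℝ) ^ 2)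
      ≤ δ := by
  have hN : (0 : ℝ) < ((c * W : ℕ) : ℝ) := by exact_mod_cast Nat.mul_pos hc hW
  have h7 : (2 * (2 * (c * W) + R) + 1) ≤ 7 * (c * W) := by
    have : W ≤ c * W := Nat.le_mul_of_pos_left W hc
    omega
  have h7' : ((2 * (W * ((2 * (2 * (c * W) + R) + 1) * n)) : ℕ) : ℝ) ≤
      2 * ((W : ℝ) * (7 * ((c * W : ℕ) : ℝ) * n)) := by
    exact_mod_cast Nat.mul_le_mul_left 2 (Nat.mul_le_mul_left W (Nat.mul_le_mul_right n h7))
  rw [mul_div_assoc', div_le_iff₀ (pow_pos hN 2)]
  refine (mul_le_mul_of_nonneg_right h7' (sq_nonneg _)).trans ?_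
  have := mul_le_mul_of_nonneg_right hδ (mul_nonneg (Nat.cast_nonneg W) hN.le)
  push_cast at this ⊢
  nlinarith

/-- A bound for the second energy term. -/
theorem fine_term_le {n R q Q : ℕ} {δ L : ℝ} (hq : q ≤ 2 * Q) (hL : 1 ≤ L)
    (hδ : 256 * (Q : ℝ) * n * (R : ℝ) ^ 2 ≤ δ * L) :
    (q : ℝ) * (n * (32 * (R : ℝ) ^ 2 * (L + 3) / L ^ 2)) ≤ δ := by
  have hq' : (q : ℝ) ≤ 2 * Q := by exact_mod_cast hq
  have hnn : 0 ≤ (n : ℝ) * (32 * (R : ℝ) ^ 2 * (L + 3) / L ^ 2) :=
    mul_nonneg (Nat.cast_nonneg n)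
      (div_nonneg (mul_nonneg (by positivity) (by linarith)) (sq_nonneg L))
  refine (mul_le_mul_of_nonneg_right hq' hnn).trans ?_
  rw [mul_div_assoc', mul_div_assoc', div_le_iff₀ (by positivity)]
  have h0 : 0 ≤ (Q : ℝ) * n * (R : ℝ) ^ 2 := by positivity
  nlinarith [mul_le_mul_of_nonneg_left (show L + 3 ≤ 4 * L by linarith) h0,
    mul_le_mul_of_nonneg_right hδ (show (0 : ℝ) ≤ L by linarith)]

/-- Almost invariant laws on lamps over a fault line of a sparse tower. -/
theorem linearMean_of_sparse [CompactSpace X] [T2Space X] (h : T.Sparse) : T.LinearMean ax n := by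
  classical
  rcases (T.fault ax).eq_empty_or_nonempty with hempty | ⟨x0, hx0⟩
  · exact linearMean_of_empty T ax hempty
  intro gs hgs fs hfs ε hε
  obtain ⟨C₀', Q, hSp⟩ := h
  set C₀ := C₀' + 1 with hC₀
  choose v w hvc hwc hv hw using fun g : gs => exists_tables (hgs g.1 g.2)
  choose Kf Bf hBf hfB using fun f : fs => hfs f.1 f.2
  -- the observation
  set Ob := (gs → Fin n → (Lat × Fin n) × (Lat × Fin n)) × (fs → Fin n → Bool)
  set f₀ : X → Ob := fun x => (fun g c => (toAx ax (v g (x, c)), toAx ax (w g (x, c))),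
    fun i c => decide ((x, c) ∈ Bf i)) with hf₀
  have hcx : ∀ c : Fin n, Continuous fun x : X => (x, c) := fun c =>
    continuous_id.prodMk continuous_const
  have hf₀c : IsLocallyConstant f₀ := by
    rw [IsLocallyConstant.iff_eventually_eq]
    intro x
    have h1 : ∀ᶠ y in nhds x, ∀ g : gs, ∀ c : Fin n,
        v g (y, c) = v g (x, c) ∧ w g (y, c) = w g (x, c) :=
      Filter.eventually_all.2 fun g => Filter.eventually_all.2 fun c =>
        (((hvc g).comp_continuous (hcx c)).eventually_eq x).and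
          (((hwc g).comp_continuous (hcx c)).eventually_eq x)
    have h2 : ∀ᶠ y in nhds x, ∀ i : fs, ∀ c : Fin n, ((y, c) ∈ Bf i ↔ (x, c) ∈ Bf i) := by
      refine Filter.eventually_all.2 fun i => Filter.eventually_all.2 fun c => ?_
      have hcl := (hBf i).preimage (hcx c)
      by_cases hx : (x, c) ∈ Bf i
      · filter_upwards [hcl.isOpen.mem_nhds hx] with y hy
        exact iff_of_true hy hx
      · filter_upwards [hcl.compl.isOpen.mem_nhds hx] with y hy
        exact iff_of_false hy hx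
    filter_upwards [h1, h2] with y hy1 hy2
    refine Prod.ext (funext fun g => funext fun c => ?_) (funext fun i => funext fun c => ?_)
    · show (_, _) = (_, _)
      rw [(hy1 g c).1, (hy1 g c).2]
    · exact decide_eq_decide.2 (hy2 i c)
  haveI : Finite (Set.range f₀) := hf₀c.range_finite.to_subtype
  haveI : Fintype (Set.range f₀) := Fintype.ofFinite _
  set f : X → Set.range f₀ := Set.rangeFactorization f₀ with hf
  have hfc : IsLocallyConstant f := IsLocallyConstant.desc f Subtype.val hf₀c Subtype.val_injective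
  -- the bounds
  set size : Lat × Fin n → ℕ := fun u => max u.1.1.natAbs u.1.2.natAbs with hsize
  set R : ℕ := (univ : Finset (Set.range f₀ × gs × Fin n)).sup fun t =>
    max (size (t.1.1.1 t.2.1 t.2.2).1) (size (t.1.1.1 t.2.1 t.2.2).2) with hR
  set KB : ℕ := (univ : Finset fs).sup Kf with hKB
  have hRb : ∀ (a : Set.range f₀) (g : gs) (c : Fin n),
      Frame.Small R (a.1.1 g c).1.1 ∧ Frame.Small R (a.1.1 g c).2.1 := fun a g c => by
    have := le_sup (f := fun t : Set.range f₀ × gs × Fin n =>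
      max (size (t.1.1.1 t.2.1 t.2.2).1) (size (t.1.1.1 t.2.1 t.2.2).2)) (mem_univ (a, g, c))
    simp only [← hR, hsize, max_le_iff] at this
    exact ⟨this.1, this.2⟩
  -- the scales
  set δ := ε ^ 2 / 16 with hδ
  have hδ0 : 0 < δ := by positivity
  obtain ⟨c, hc1, hc⟩ : ∃ c : ℕ, 1 ≤ c ∧ 14 * (n : ℝ) * (R : ℝ) ^ 2 ≤ δ * c := by
    refine ⟨⌈14 * (n : ℝ) * (R : ℝ) ^ 2 / δ⌉₊ + 1, Nat.le_add_left _ _, ?_⟩
    rw [← div_le_iff₀' hδ0]
    push_cast
    linarith [Nat.le_ceil (14 * (n : ℝ) * (R : ℝ) ^ 2 / δ)]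
  obtain ⟨P, hP⟩ : ∃ P : ℕ,
      Real.exp (256 * (Q : ℝ) * n * (R : ℝ) ^ 2 / δ + 1) ≤ P := ⟨⌈_⌉₊, Nat.le_ceil _⟩
  have hP1 : 1 ≤ P := by
    have : (0 : ℝ) < P := (Real.exp_pos _).trans_le hP
    exact_mod_cast this
  set a := 4 * c + 4 + C₀ with ha
  obtain ⟨m, hCW, hCW', hax⟩ := hSp (Set.range f₀) f inferInstance hfc
    (R + KB + 1 + 128 * (C₀ + 4) + 64 * (2 * c + 4) + 8 * ((a + 1) * P + 4))
  obtain ⟨hper, hshape⟩ := hax ax
  set W := T.W m with hW
  set W' := T.W (m + 1) with hW'
  have hWp : 0 < W := T.W_pos m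
  have hRW : R ≤ W := by omega
  have hKW : KB ≤ W := by omega
  have hth : ∀ x, x ≤ R + KB + 1 + 128 * (C₀ + 4) + 64 * (2 * c + 4) + 8 * ((a + 1) * P + 4) →
      x * W ≤ W' := fun x hx => (Nat.mul_le_mul_right W hx).trans hCW'
  have hC0W : C₀' * W ≤ C₀ * W := Nat.mul_le_mul_right W (Nat.le_succ _)
  have hctx : Ctx T ax f m C₀ :=
    ⟨hth (128 * (C₀ + 4)) ((Nat.le_add_left _ _).trans ((Nat.le_add_right _ _).trans (Nat.le_add_right _ _))),
      fun x hx x' hx' k hk e e' h1 h2 => hper x hx x' hx' k hk e e'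
        (fun c => lt_of_le_of_lt (by rw [hW] at hC0W; omega) (h1 c))
        (fun c => lt_of_le_of_lt (by rw [hW] at hC0W; omega) (h2 c)),
      Nat.le_add_left 1 C₀', x0, hx0⟩
  let F : Frame X (Set.range f₀) := hctx.frame
  have hFW : F.W = W := rfl
  have hFD : F.D = W' / 8 := rfl
  have hFC : F.C₀ * F.W = C₀ * W := rfl
  set N := c * W with hN
  set K := a * W with hK
  set M := W' / 8 - 3 * W with hM
  have e1 : W ≤ c * W := Nat.le_mul_of_pos_left W hc1
  have e2 : K = 4 * (c * W) + 4 * W + C₀ * W := by rw [hK, ha]; ring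
  have e3 : (a * P + P) * W = ((a + 1) * P) * W := by ring
  have e4 : K + W ≤ ((a + 1) * P) * W := by
    rw [hK, ← Nat.succ_mul]
    exact Nat.mul_le_mul_right W (Nat.le_mul_of_pos_right _ hP1)
  have e5 : 8 * ((((a + 1) * P) * W) + 4 * W) ≤ W' := by
    rw [← add_mul, ← mul_assoc]
    exact hth _ (Nat.le_add_left _ _)
  have e6 : 64 * (2 * (c * W) + 4 * W) ≤ W' := by
    rw [← mul_assoc 2 c W, ← add_mul, ← mul_assoc]
    exact hth _ ((Nat.le_add_left _ _).trans (Nat.le_add_right _ _))
  have e7 : 128 * (C₀ * W + 4 * W) ≤ W' := by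
    rw [← add_mul, ← mul_assoc]
    exact hth _ ((Nat.le_add_left _ _).trans ((Nat.le_add_right _ _).trans (Nat.le_add_right _ _)))
  have hKM : K < M := by omega
  have hlog : 256 * (Q : ℝ) * n * (R : ℝ) ^ 2 / δ + 1 ≤ logRatio K M := by
    have h1 : ((P * (K + 1) : ℕ) : ℝ) ≤ (M : ℝ) + 1 := by
      have : P * (K + 1) ≤ ((a + 1) * P) * W := by
        rw [hK, show (a + 1) * P * W = P * (a * W + W) by ring]
        exact Nat.mul_le_mul_left P (by omega)
      exact_mod_cast (show P * (K + 1) ≤ M + 1 by omega)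
    rw [← Real.exp_le_exp, logRatio, Real.exp_sub, Real.exp_log (by positivity),
      Real.exp_log (by positivity), le_div_iff₀ (by positivity)]
    refine (mul_le_mul_of_nonneg_right hP (by positivity)).trans ?_
    push_cast at h1
    exact h1
  have hL1 : (1 : ℝ) ≤ logRatio K M := le_trans (le_add_of_nonneg_left (by positivity)) hlog
  -- the energy
  have hq : F.qset.card ≤ 2 * Q := by
    choose sh hsh hmem using hshape
    let res : (ℤ → ℤ → Set.range f₀) → F.Pat := fun s jk => s jk.1.1 jk.1.2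
    refine (card_le_card (t := (sh false).image (fun s => (false, res s)) ∪
      (sh true).image fun s => (true, res s)) fun cq hcq => ?_).trans ((card_union_le _ _).trans
        ((add_le_add card_image_le card_image_le).trans (by linarith [hsh false, hsh true])))
    obtain ⟨z, hz, hzc, hzp⟩ := F.mem_qset.1 hcq
    obtain ⟨s, hs, hsf⟩ := hmem cq.1 z hz hzc
    have hres : cq = (cq.1, res s) := Prod.ext rfl <| by
      rw [← hzp]
      funext jk
      obtain ⟨h1, h2⟩ := F.mem_sq.1 jk.2
      exact hsf _ _ h1 h2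
    obtain ⟨c', q⟩ := cq
    cases c'
    · exact mem_union_left _ (mem_image.2 ⟨s, hs, hres.symm⟩)
    · exact mem_union_right _ (mem_image.2 ⟨s, hs, hres.symm⟩)
  have hE : F.energy n N K M R ≤ δ + δ := by
    refine add_le_add ?_ (fine_term_le hq hL1 ?_)
    · have hcard : (F.boxB (n := n) (2 * N + R)).card =
          2 * (W * ((2 * (2 * (c * W) + R) + 1) * n)) := by
        simp only [Frame.boxB, card_product, card_univ, ZMod.card, Fintype.card_fin, Fintype.card_bool,
          Int.card_Icc, hFW, hN]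
        congr 3
        omega
      rw [hcard]
      exact base_term_le hRW hWp hc1 hc
    · rw [← div_le_iff₀' hδ0]
      linarith
  have hsqrt : 2 * Real.sqrt (F.energy n N K M R) < ε := by
    have : Real.sqrt (F.energy n N K M R) ≤ Real.sqrt ((ε * (2 / 5)) ^ 2) :=
      Real.sqrt_le_sqrt (hE.trans (by rw [hδ]; nlinarith [sq_nonneg ε]))
    rw [Real.sqrt_sq (by positivity)] at this
    linarith
  refine ⟨(F.law (n := n) N K M R).mapDomain supp, Norm1.mapDomain_nonneg _ (F.law_nonneg N K M R),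
    (Norm1.mapDomain_of_nonneg _ (F.law_nonneg N K M R)).trans (F.norm1_law N K M R),
    fun A hA => ?_, fun g hg => ?_, fun fl hfl => ?_⟩
  · obtain ⟨u, hu, rfl⟩ := mem_image.1 (Finsupp.mapDomain_support hA)
    rw [Frame.law] at hu
    obtain ⟨A', -, rfl⟩ := mem_image.1 (Finsupp.mapDomain_support hu)
    exact hctx.lamp_total hfc A'
  · have hsh : ∀ (u : Lat × Fin n) (x : X), S.sh u.1 x = F.sh (toAx ax u).1 x := fun u x =>
      (congrArg (fun l => S.sh l x) (axisVec_eta ax u.1)).symm
    let mv : F.Move n R :=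
      { g := g
        fw := fun a c => (a.1.1 ⟨g, hg⟩ c).1
        bw := fun a c => (a.1.1 ⟨g, hg⟩ c).2
        fw_eq := fun p => by
          rw [hv ⟨g, hg⟩ p, hsh]
          rfl
        bw_eq := fun p => by
          rw [hw ⟨g, hg⟩ p, hsh]
          rfl
        fw_le := fun a c => (hRb a _ c).1
        bw_le := fun a c => (hRb a _ c).2 }
    have hmove := F.norm1_law_move mv (N := N) (K := K) (M := M) (Nat.mul_pos hc1 hWp) hRW
      (by omega) (by omega) (by omega) hKM (by omega)
    rw [show ((F.law (n := n) N K M R).mapDomain supp).mapDomain (fun A => g '' A) =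
      ((F.law (n := n) N K M R).mapDomain fun u => u ∘ g.symm).mapDomain supp by
        rw [← Finsupp.mapDomain_comp, ← Finsupp.mapDomain_comp]
        exact Finsupp.mapDomain_congr fun u _ => image_supp g u,
      ← Finsupp.mapDomain_sub]
    exact (Norm1.mapDomain_le _ _).trans_lt (hmove.trans_lt hsqrt)
  · set i : fs := ⟨fl, hfl⟩
    set Ψ : Set.range f₀ → ZMod F.W' → F.BIdx n → ZMod 2 := fun a _ j =>
      if j.2.2.1.natAbs ≤ Kf i ∧ a.1.2 i j.2.2.2 = true then 1 else 0
    have hKi : Kf i ≤ KB := le_sup (f := Kf) (mem_univ i)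
    have hlamp : supp (F.banded KB Ψ) = fl := by
      rw [show fl = i.1 from rfl, hfB i]
      ext p
      simp only [supp, Frame.banded, Set.mem_ofPred_eq, Set.mem_inter_iff, Ψ]
      have hdec : ((F.f p.1).1.2 i (F.idx p).2.2.2 = true) ↔ p ∈ Bf i := decide_eq_true_iff
      simp only [hdec]
      constructor
      · intro hp
        split_ifs at hp with h1 h2
        · exact ⟨h2.2, F.lev p.1, h2.1, F.atLev_lev h1.1⟩
        all_goals exact absurd hp (by decide)
      · rintro ⟨hB, k, hk, hkp⟩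
        have hl : F.lev p.1 = k := F.lev_eq hkp
        rw [if_pos ⟨⟨k, hkp⟩, by omega⟩, if_pos ⟨show (F.lev p.1).natAbs ≤ _ by omega, hB⟩]
    have hadd := F.norm1_law_add (n := n) (N := N) (K := K) (M := M) (R := R) (H := KB)
      (Nat.mul_pos hc1 hWp) (by omega) (by omega) (by omega) hKM (by omega) Ψ fun _ _ _ _ => rfl
    rw [show ((F.law (n := n) N K M R).mapDomain supp).mapDomain (fun A => symmDiff A fl) =
      ((F.law (n := n) N K M R).mapDomain fun u => u + F.banded KB Ψ).mapDomain supp by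
        rw [← Finsupp.mapDomain_comp, ← Finsupp.mapDomain_comp]
        exact Finsupp.mapDomain_congr fun u _ => by
          simp only [Function.comp_apply, supp_add, hlamp],
      ← Finsupp.mapDomain_sub]
    exact (Norm1.mapDomain_le _ _).trans_lt (hadd.trans_lt hε)

end Vale.Agent.P196.Full.Law
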