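import Vale.Agent.P196.Full.Defs

/-!
# P196: cells over a fault row

An abstract row geometry at one scale: phases along the row, two channels, a finite observation
which is periodic on each half away from the channels. Functions on a band which are computed from the
observation and the index of a point are sums of base cells and of fine cells near the channels.
-/

open Finset

namespace Vale.Agent.P196.Full.Law

open Tower (cdist)

/-- Row geometry at one scale. -/
structure Frame (X α : Type) where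
  /-- The translation; the first coordinate is along the row. -/
  sh : Lat → X → X
  sh_zero : ∀ x, sh 0 x = x
  sh_add : ∀ u v x, sh (u + v) x = sh u (sh v x)
  /-- The fine width. -/
  W : ℕ
  /-- The coarse width. -/
  W' : ℕ
  W_pos : 0 < W
  dvd : W ∣ W'
  /-- The fault row. -/
  fault : Set X
  fault_along : ∀ x ∈ fault, ∀ j : ℤ, sh (j, 0) x ∈ fault
  fault_across : ∀ x ∈ fault, ∀ k : ℤ, sh (0, k) x ∈ fault → k = 0
  /-- The coarse phase along the row. -/
  al : X → ZMod W'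
  al_sh : ∀ v x, al (sh v x) = al x + (v.1 : ZMod W')
  /-- The channels. -/
  ctr : Bool → ZMod W'
  /-- The observation. -/
  f : X → α
  /-- The controlled radius. -/
  D : ℕ
  /-- The width of the channels. -/
  C₀ : ℕ
  sep : ∀ (c c' : Bool) (i j : ℤ), i.natAbs ≤ D → j.natAbs ≤ D →
    ctr c + (i : ZMod W') = ctr c' + (j : ZMod W') → c = c' ∧ i = j
  /-- The side of the middle channel. -/
  half : ZMod W' → Bool
  half_stable : ∀ (a : ZMod W') (j : ℤ),
    (∀ c, j.natAbs < cdist a (ctr c)) → half (a + (j : ZMod W')) = half a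
  one_le_C₀ : 1 ≤ C₀
  periodic : ∀ x ∈ fault, ∀ x' ∈ fault, ∀ k : ℤ, k.natAbs ≤ D →
    ZMod.castHom dvd (ZMod W) (al x) = ZMod.castHom dvd (ZMod W) (al x') →
    half (al x) = half (al x') →
    (∀ c, 2 * k.natAbs + C₀ * W < cdist (al x) (ctr c)) →
    (∀ c, 2 * k.natAbs + C₀ * W < cdist (al x') (ctr c)) →
    f (sh (0, k) x) = f (sh (0, k) x')
  /-- Points of the row on either side, far from both channels. -/
  gen : Bool → X
  gen_mem : ∀ b, gen b ∈ fault
  gen_half : ∀ (b : Bool) (j : ℤ), j.natAbs ≤ 3 * W → half (al (sh (j, 0) (gen b))) = b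
  gen_far : ∀ (b : Bool) (j k : ℤ) (c : Bool), j.natAbs ≤ 3 * W → k.natAbs ≤ D →
    8 * k.natAbs ≤ D → 2 * k.natAbs + C₀ * W < cdist (al (sh (j, 0) (gen b))) (ctr c)

namespace Frame

variable {X α : Type} (F : Frame X α) {n : ℕ}

instance neZero_W : NeZero F.W := ⟨F.W_pos.ne'⟩

theorem sh_sh (u v : Lat) (x : X) : F.sh u (F.sh v x) = F.sh (u + v) x := (F.sh_add u v x).symm

theorem sh_neg_cancel (u : Lat) (x : X) : F.sh (-u) (F.sh u x) = x := by
  rw [F.sh_sh, neg_add_cancel, F.sh_zero]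

theorem sh_cancel_neg (u : Lat) (x : X) : F.sh u (F.sh (-u) x) = x := by
  rw [F.sh_sh, add_neg_cancel, F.sh_zero]

/-- The fine phase. -/
def sm (x : X) : ZMod F.W := ZMod.castHom F.dvd (ZMod F.W) (F.al x)

theorem sm_sh (v : Lat) (x : X) : F.sm (F.sh v x) = F.sm x + (v.1 : ZMod F.W) := by
  rw [sm, sm, F.al_sh, map_add, map_intCast]

/-- The point lies at height `k`. -/
def AtLev (x : X) (k : ℤ) : Prop := F.sh (0, -k) x ∈ F.fault

/-- The point lies at some height. -/
def OnLev (x : X) : Prop := ∃ k, F.AtLev x k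

theorem AtLev.unique {F : Frame X α} {x : X} {k k' : ℤ} (h : F.AtLev x k) (h' : F.AtLev x k') :
    k = k' := by
  have e : F.sh (0, k - k') (F.sh (0, -k) x) = F.sh (0, -k') x := by
    rw [F.sh_sh]
    congr 1
    ext <;> simp; ring
  have := F.fault_across _ h (k - k') (e ▸ h')
  linarith

theorem atLev_sh {x : X} {k : ℤ} (v : Lat) (h : F.AtLev x k) : F.AtLev (F.sh v x) (k + v.2) := by
  have e : F.sh (0, -(k + v.2)) (F.sh v x) = F.sh (v.1, 0) (F.sh (0, -k) x) := by
    rw [F.sh_sh, F.sh_sh]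
    congr 1
    ext <;> simp
  rw [AtLev, e]
  exact F.fault_along _ h _

open Classical in
/-- The height. -/
noncomputable def lev (x : X) : ℤ := if h : F.OnLev x then h.choose else 0

theorem lev_eq {x : X} {k : ℤ} (h : F.AtLev x k) : F.lev x = k := by
  have h' : F.OnLev x := ⟨k, h⟩
  rw [lev, dif_pos h']
  exact h'.choose_spec.unique h

theorem atLev_lev {x : X} (h : F.OnLev x) : F.AtLev x (F.lev x) := by
  rw [lev, dif_pos h]
  exact h.choose_spec

/-- The index of a base cell: side, fine phase, height, colour. -/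
abbrev BIdx (n : ℕ) := Bool × ZMod F.W × ℤ × Fin n

/-- The index of a point. -/
noncomputable def idx (p : Pt X n) : F.BIdx n := (F.half (F.al p.1), F.sm p.1, F.lev p.1, p.2)

theorem onLev_sh {x : X} (v : Lat) (h : F.OnLev x) : F.OnLev (F.sh v x) :=
  ⟨_, F.atLev_sh v h.choose_spec⟩

theorem idx_sh {x : X} (v : Lat) (c : Fin n) (h : F.OnLev x) :
    F.idx (F.sh v x, c) = (F.half (F.al x + (v.1 : ZMod F.W')), F.sm x + (v.1 : ZMod F.W),
      F.lev x + v.2, c) := by
  simp [idx, F.sm_sh, F.al_sh, F.lev_eq (F.atLev_sh v (F.atLev_lev h))]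

open Classical in
/-- A base cell. -/
noncomputable def cellB (i : F.BIdx n) (p : Pt X n) : ZMod 2 :=
  if F.OnLev p.1 ∧ F.idx p = i then 1 else 0

/-- The observed square. -/
noncomputable def sq : Finset (ℤ × ℤ) := Icc (-(F.D : ℤ)) F.D ×ˢ Icc (-(F.D : ℤ)) F.D

theorem mem_sq {j k : ℤ} : (j, k) ∈ F.sq ↔ j.natAbs ≤ F.D ∧ k.natAbs ≤ F.D := by
  simp only [sq, mem_product, mem_Icc]
  omega

/-- A pattern near a channel. -/
abbrev Pat := ↥F.sq → α

/-- The pattern around a point. -/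
def pat (z : X) : F.Pat := fun jk => F.f (F.sh jk.1 z)

/-- The points of a channel with a given pattern. -/
def chan (cq : Bool × F.Pat) : Set X := {z | z ∈ F.fault ∧ F.al z = F.ctr cq.1 ∧ F.pat z = cq.2}

/-- The index of a fine cell. -/
abbrev FIdx (n : ℕ) := (Bool × F.Pat) × (ℤ × ℤ) × Fin n

/-- A point lies in a fine cell. -/
def InF (i : F.FIdx n) (p : Pt X n) : Prop := p.2 = i.2.2 ∧ F.sh (-i.2.1) p.1 ∈ F.chan i.1

open Classical in
/-- A fine cell. -/
noncomputable def cellF (i : F.FIdx n) (p : Pt X n) : ZMod 2 := if F.InF i p then 1 else 0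

/-- The index is within radius `r`. -/
def Small (r : ℕ) (jk : ℤ × ℤ) : Prop := jk.1.natAbs ≤ r ∧ jk.2.natAbs ≤ r

theorem InF.atLev {F : Frame X α} {i : F.FIdx n} {p : Pt X n} (h : F.InF i p) :
    F.AtLev p.1 i.2.1.2 := by
  have h2 := F.fault_along _ h.2.1 i.2.1.1
  rw [F.sh_sh] at h2
  rw [AtLev]
  convert h2 using 2
  ext <;> simp

theorem InF.unique {F : Frame X α} {i i' : F.FIdx n} {p : Pt X n} (h : F.InF i p)
    (h' : F.InF i' p) (hi : Small F.D i.2.1) (hi' : Small F.D i'.2.1) : i = i' := by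
  obtain ⟨⟨ch, q⟩, ⟨j, k⟩, c⟩ := i
  obtain ⟨⟨ch', q'⟩, ⟨j', k'⟩, c'⟩ := i'
  have hk : k = k' := h.atLev.unique h'.atLev
  have ha : ∀ {ch : Bool} {q : F.Pat} {j k : ℤ} {c : Fin n}, F.InF ((ch, q), (j, k), c) p →
      F.al p.1 = F.ctr ch + (j : ZMod F.W') := by
    intro ch q j k c h
    have := h.2.2.1
    rw [F.al_sh] at this
    simp only [Prod.fst_neg, Int.cast_neg] at this
    rw [← this]; ring
  obtain ⟨rfl, hj⟩ := F.sep ch ch' j j' hi.1 hi'.1 ((ha h).symm.trans (ha h'))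
  subst hj hk
  have hq : q = q' := h.2.2.2.symm.trans h'.2.2.2
  have hc : c = c' := h.1.symm.trans h'.1
  subst hq hc
  rfl

theorem InF.al_eq {F : Frame X α} {i : F.FIdx n} {p : Pt X n} (h : F.InF i p) :
    F.al p.1 = F.ctr i.1.1 + (i.2.1.1 : ZMod F.W') := by
  have := h.2.2.1
  rw [F.al_sh] at this
  simp only [Prod.fst_neg, Int.cast_neg] at this
  rw [← this]; ring

theorem InF.f_eq {F : Frame X α} {i : F.FIdx n} {p : Pt X n} (h : F.InF i p)
    (hm : i.2.1 ∈ F.sq) : F.f p.1 = i.1.2 ⟨i.2.1, hm⟩ := by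
  rw [← h.2.2.2, pat, F.sh_cancel_neg]

theorem InF.idx_eq {F : Frame X α} {i : F.FIdx n} {p : Pt X n} (h : F.InF i p) :
    F.idx p = (F.half (F.ctr i.1.1 + (i.2.1.1 : ZMod F.W')),
      ZMod.castHom F.dvd (ZMod F.W) (F.ctr i.1.1) + (i.2.1.1 : ZMod F.W),
      i.2.1.2, i.2.2) := by
  have := h.al_eq
  simp only [idx, sm, F.lev_eq h.atLev, h.1, this, map_add, map_intCast]

/-- A representative of a side and a fine phase, far from the channels. -/
def rep (b : Bool) (a : ZMod F.W) : X := F.sh (((a - F.sm (F.gen b)).val : ℤ), 0) (F.gen b)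

theorem rep_mem (b : Bool) (a : ZMod F.W) : F.rep b a ∈ F.fault :=
  F.fault_along _ (F.gen_mem b) _

theorem sm_rep (b : Bool) (a : ZMod F.W) : F.sm (F.rep b a) = a := by
  rw [rep, F.sm_sh]
  simp

theorem half_rep (b : Bool) (a : ZMod F.W) {j : ℤ} (hj : j.natAbs ≤ 2 * F.W) :
    F.half (F.al (F.sh (j, 0) (F.rep b a))) = b := by
  rw [rep, F.sh_sh]
  have h := ZMod.val_lt (a - F.sm (F.gen b))
  simpa using F.gen_half b (j + ((a - F.sm (F.gen b)).val : ℤ)) (by omega)

/-- The generic observation. -/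
def fgen (b : Bool) (a : ZMod F.W) (k : ℤ) : α := F.f (F.sh (0, k) (F.rep b a))

/-- Far from the channels. -/
def Far (x : X) (k : ℤ) : Prop := ∀ c, 2 * k.natAbs + F.C₀ * F.W < cdist (F.al x) (F.ctr c)

theorem far_rep (b : Bool) (a : ZMod F.W) {j k : ℤ} (hj : j.natAbs ≤ 2 * F.W)
    (hk : 8 * k.natAbs ≤ F.D) : F.Far (F.sh (j, 0) (F.rep b a)) k := by
  intro c
  rw [rep, F.sh_sh]
  have h := ZMod.val_lt (a - F.sm (F.gen b))
  simpa using F.gen_far b (j + ((a - F.sm (F.gen b)).val : ℤ)) k c (by omega) (by omega) hk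

theorem half_far {x : X} {k j : ℤ} (h : F.Far x k) (hj : j.natAbs ≤ F.W) :
    F.half (F.al x + (j : ZMod F.W')) = F.half (F.al x) := by
  refine F.half_stable _ _ fun c => ?_
  have := h c
  have := Nat.le_mul_of_pos_left F.W F.one_le_C₀
  omega

theorem f_eq_fgen {x : X} {k : ℤ} (h : F.AtLev x k) (hk : 8 * k.natAbs ≤ F.D)
    (hfar : F.Far (F.sh (0, -k) x) k) : F.f x = F.fgen (F.half (F.al x)) (F.sm x) k := by
  set b := F.half (F.al x) with hb
  have e0 : ((0 : ℤ), (0 : ℤ)) = 0 := rfl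
  have h1 : F.Far (F.rep b (F.sm x)) k := by
    have := F.far_rep b (F.sm x) (j := 0) (k := k) (by simp) hk
    rwa [e0, F.sh_zero] at this
  have h2 : F.half (F.al (F.rep b (F.sm x))) = b := by
    have := F.half_rep b (F.sm x) (j := 0) (by simp)
    rwa [e0, F.sh_zero] at this
  have e : ZMod.castHom F.dvd (ZMod F.W) (F.al (F.sh (0, -k) x)) =
      ZMod.castHom F.dvd (ZMod F.W) (F.al (F.rep b (F.sm x))) := by
    change F.sm _ = F.sm _
    rw [F.sm_rep, F.sm_sh]
    simp
  have := F.periodic _ h _ (F.rep_mem _ _) k (by omega) e (by rw [h2]; simp [F.al_sh, hb]) hfar h1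
  rwa [F.sh_sh, show ((0 : ℤ), k) + (0, -k) = 0 by ext <;> simp, F.sh_zero] at this

/-- Base indices of height at most `H`. -/
noncomputable def boxB (H : ℕ) : Finset (F.BIdx n) := univ ×ˢ (univ ×ˢ (Icc (-(H : ℤ)) H ×ˢ univ))

theorem mem_boxB {H : ℕ} {i : F.BIdx n} : i ∈ F.boxB H ↔ i.2.2.1.natAbs ≤ H := by
  simp only [boxB, mem_product, mem_univ, true_and, and_true, mem_Icc]
  omega

variable [Finite α]

noncomputable instance fintype_pat : Fintype F.Pat :=
  haveI := Fintype.ofFinite α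
  inferInstanceAs (Fintype (↥F.sq → α))

open Classical in
/-- The realised patterns. -/
noncomputable def qset : Finset (Bool × F.Pat) := univ.filter fun cq => (F.chan cq).Nonempty

theorem mem_qset {cq : Bool × F.Pat} : cq ∈ F.qset ↔ (F.chan cq).Nonempty := by
  classical
  simp [qset]

/-- The zone of corrections for heights at most `H`. -/
noncomputable def zone (H : ℕ) : Finset (F.FIdx n) :=
  F.qset ×ˢ ((Icc (-((2 * H + F.C₀ * F.W : ℕ) : ℤ)) (2 * H + F.C₀ * F.W : ℕ) ×ˢ
    Icc (-(H : ℤ)) H) ×ˢ univ)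

theorem mem_zone {H : ℕ} {i : F.FIdx n} : i ∈ F.zone H ↔ (F.chan i.1).Nonempty ∧
    i.2.1.1.natAbs ≤ 2 * H + F.C₀ * F.W ∧ i.2.1.2.natAbs ≤ H := by
  simp only [zone, mem_product, mem_univ, and_true, mem_qset, mem_Icc]
  generalize 2 * H + F.C₀ * F.W = J
  constructor <;> rintro ⟨h0, h⟩ <;> exact ⟨h0, by omega⟩

open Classical in
/-- The value on a band of a function of the observation, the coarse phase and the index. -/
noncomputable def banded (H : ℕ) (Ψ : α → ZMod F.W' → F.BIdx n → ZMod 2) (p : Pt X n) : ZMod 2 :=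
  if F.OnLev p.1 ∧ (F.lev p.1).natAbs ≤ H then Ψ (F.f p.1) (F.al p.1) (F.idx p) else 0

omit [Finite α] in
theorem sum_cellB (H : ℕ) (φ : F.BIdx n → ZMod 2) (p : Pt X n) :
    ∑ i ∈ F.boxB H, φ i * F.cellB i p =
      @ite _ (F.OnLev p.1 ∧ (F.lev p.1).natAbs ≤ H) (Classical.propDecidable _) (φ (F.idx p)) 0 := by
  classical
  have e : ∀ i : F.BIdx n, φ i * F.cellB i p =
      if F.idx p = i then (if F.OnLev p.1 then φ i else 0) else 0 := fun i => by
    simp only [cellB, mul_ite, mul_one, mul_zero]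
    by_cases h1 : F.idx p = i <;> by_cases h2 : F.OnLev p.1 <;> simp [h1, h2]
  simp only [e, Finset.sum_ite_eq, mem_boxB]
  show (if (F.lev p.1).natAbs ≤ H then _ else 0) = _
  by_cases h1 : F.OnLev p.1 <;> by_cases h2 : (F.lev p.1).natAbs ≤ H <;> simp [h1, h2]

/-- A banded function is its generic part plus fine cells in the zone. -/
theorem banded_eq {H : ℕ} (hH : 8 * H ≤ F.D) (hJ : 2 * H + F.C₀ * F.W ≤ F.D)
    (Ψ : α → ZMod F.W' → F.BIdx n → ZMod 2) (G : F.BIdx n → ZMod 2)
    (hG : ∀ p : Pt X n, F.AtLev p.1 (F.lev p.1) → (F.lev p.1).natAbs ≤ H →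
      F.Far (F.sh (0, -F.lev p.1) p.1) (F.lev p.1) →
      F.f p.1 = F.fgen (F.idx p).1 (F.idx p).2.1 (F.idx p).2.2.1 →
      Ψ (F.f p.1) (F.al p.1) (F.idx p) = G (F.idx p)) :
    ∃ coef : F.FIdx n → ZMod 2, ∀ p, F.banded H Ψ p =
      ∑ i ∈ F.boxB H, G i * F.cellB i p +
        ∑ z ∈ F.zone H, coef z * F.cellF z p := by
  classical
  set r : Pt X n → ZMod 2 := fun p =>
    F.banded H Ψ p - ∑ i ∈ F.boxB H, G i * F.cellB i p with hr
  let pt : F.FIdx n → X := fun i => if h : (F.chan i.1).Nonempty then h.some else F.gen true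
  refine ⟨fun i => r (F.sh i.2.1 (pt i), i.2.2), fun p => eq_add_of_sub_eq' ?_⟩
  show r p = _
  have hsmall : ∀ i ∈ F.zone (n := n) H, Small F.D i.2.1 := fun i hi => by
    obtain ⟨-, h1, h2⟩ := F.mem_zone.1 hi
    exact ⟨by omega, by omega⟩
  have hval : ∀ i ∈ F.zone (n := n) H, ∀ p, F.InF i p → r p = r (F.sh i.2.1 (pt i), i.2.2) := by
    intro i hi p hp
    have hne : (F.chan i.1).Nonempty := (F.mem_zone.1 hi).1
    have hq : F.InF i (F.sh i.2.1 (pt i), i.2.2) := by
      refine ⟨rfl, ?_⟩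
      simp only [F.sh_neg_cancel, pt, dif_pos hne]
      exact hne.some_mem
    have hm : i.2.1 ∈ F.sq := F.mem_sq.2 (hsmall i hi)
    have o1 : F.OnLev p.1 := ⟨_, hp.atLev⟩
    have o2 : F.OnLev (F.sh i.2.1 (pt i)) := ⟨_, hq.atLev⟩
    simp only [hr, sum_cellB, banded, o1, o2, F.lev_eq hp.atLev, F.lev_eq hq.atLev, true_and,
      hp.f_eq hm, hq.f_eq hm, hp.idx_eq, hq.idx_eq, hp.al_eq, hq.al_eq]
  by_cases hz : ∃ i ∈ F.zone (n := n) H, F.InF i p
  · obtain ⟨i, hi, hp⟩ := hz
    rw [sum_eq_single_of_mem i hi fun i' hi' hne => ?_]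
    · rw [cellF, if_pos hp, mul_one]
      exact hval i hi p hp
    · rw [cellF, if_neg fun h => hne (h.unique hp (hsmall i' hi') (hsmall i hi)), mul_zero]
  · rw [sum_eq_zero fun i hi => by rw [cellF, if_neg fun h => hz ⟨i, hi, h⟩, mul_zero]]
    simp only [hr, sum_cellB, banded]
    by_cases hb : F.OnLev p.1 ∧ (F.lev p.1).natAbs ≤ H
    · rw [if_pos hb, if_pos hb]
      have hlev := F.atLev_lev hb.1
      set k := F.lev p.1
      have hfar : F.Far (F.sh (0, -k) p.1) k := by
        intro c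
        by_contra hc
        simp only [not_lt] at hc
        refine hz ⟨((c, F.pat (F.sh (-(((F.al (F.sh (0, -k) p.1) - F.ctr c).valMinAbs), k)) p.1)),
          ((F.al (F.sh (0, -k) p.1) - F.ctr c).valMinAbs, k), p.2), ?_, ?_⟩
        · refine F.mem_zone.2 ⟨⟨F.sh (-(((F.al (F.sh (0, -k) p.1) - F.ctr c).valMinAbs), k)) p.1,
            ?_, ?_, rfl⟩, ?_, hb.2⟩
          · have := F.fault_along _ hlev (-(F.al (F.sh (0, -k) p.1) - F.ctr c).valMinAbs)
            rw [F.sh_sh] at this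
            convert this using 2
            ext <;> simp
          · simp [F.al_sh]
          · show (F.al (F.sh (0, -k) p.1) - F.ctr c).valMinAbs.natAbs ≤ _
            simp only [Tower.cdist] at hc
            omega
        · refine ⟨rfl, ?_, ?_, rfl⟩
          · have := F.fault_along _ hlev (-(F.al (F.sh (0, -k) p.1) - F.ctr c).valMinAbs)
            rw [F.sh_sh] at this
            convert this using 2
            ext <;> simp
          · simp [F.al_sh]
      have hk : 8 * k.natAbs ≤ F.D := by have := hb.2; omega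
      rw [hG p hlev hb.2 hfar (F.f_eq_fgen hlev hk hfar), sub_self]
    · rw [if_neg hb, if_neg hb, sub_self]

end Frame

end Vale.Agent.P196.Full.Law
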