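import Vale.Agent.P196.BitFieldReiter

/-!
# P196: almost invariance of pushed forward random finite sets

A move of indices which is only defined and injective on a finite set, followed by a shear along
points of profile one, changes the law of a random finite set little.
-/

open Finset
open scoped symmDiff

namespace Vale.Agent.P196.Full.Law

variable {ι : Type*} [DecidableEq ι]

/-- An injective map of a finite set extends to a permutation. -/
lemma exists_perm_extending {S : Finset ι} {e : ι → ι} (he : Set.InjOn e ↑S) :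
    ∃ σ : ι ≃ ι, ∀ i ∈ S, σ i = e i := by
  classical
  set T := S ∪ S.image e with hT
  let p : ↥T → Prop := fun x => x.1 ∈ S
  let q : ↥T → Prop := fun x => x.1 ∈ S.image e
  let f : {x : ↥T // p x} → {x : ↥T // q x} := fun x =>
    ⟨⟨e x.1.1, mem_union_right _ (mem_image_of_mem e x.2)⟩, mem_image_of_mem e x.2⟩
  have hf : Function.Bijective f := by
    constructor
    · intro x y h
      exact Subtype.ext (Subtype.ext (he x.2 y.2 (congrArg (fun z => z.1.1) h)))
    · rintro ⟨⟨y, hyT⟩, hy⟩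
      obtain ⟨x, hx, rfl⟩ := mem_image.1 hy
      exact ⟨⟨⟨x, mem_union_left _ hx⟩, hx⟩, rfl⟩
  refine ⟨Equiv.Perm.ofSubtype ((Equiv.ofBijective f hf).extendSubtype), fun i hi => ?_⟩
  rw [Equiv.Perm.ofSubtype_apply_of_mem _ (mem_union_left _ hi),
    Equiv.extendSubtype_apply_of_mem _ _ (show p ⟨i, mem_union_left _ hi⟩ from hi)]
  rfl

/-- A partial move of the indices changes the law little. -/
theorem norm1_image_fieldMeasure_le (S : Finset ι) {e e' : ι → ι} {φ : ι → ℝ}
    (h0 : ∀ i, 0 ≤ φ i) (h1 : ∀ i, φ i ≤ 1) (hS : ∀ i, i ∉ S → φ i = 0)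
    (he : Set.InjOn e ↑S) (he' : ∀ i, φ i ≠ 0 → e' i ∈ S ∧ e (e' i) = i) {E : ℝ}
    (hE : ∑ i ∈ S, (φ (e i) - φ i) ^ 2 ≤ E) :
    norm1 ((fieldMeasure S φ).mapDomain (fun A => A.image e) - fieldMeasure S φ)
      ≤ 2 * Real.sqrt E := by
  classical
  obtain ⟨σ, hσ⟩ := exists_perm_extending he
  have hsupp : ∀ A ∈ (fieldMeasure S φ).support, A ⊆ S := fun A hA => by
    rw [Finsupp.mem_support_iff, fieldMeasure_apply] at hA
    by_contra h
    exact hA (if_neg h)
  have e1 : (fieldMeasure S φ).mapDomain (fun A => A.image e) =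
      (fieldMeasure S φ).mapDomain (fun A => A.map σ.toEmbedding ∆ ∅) := by
    refine Finsupp.mapDomain_congr fun A hA => ?_
    rw [← bot_eq_empty, symmDiff_bot, map_eq_image]
    exact image_congr fun i hi => (hσ i (hsupp A hA hi)).symm
  rw [e1]
  refine norm1_mapDomain_fieldMeasure_le σ ∅ S h0 h1 hS (by simp) fun T => ?_
  have hout : ∀ i, i ∉ S.image σ → (φ (σ.symm i) - φ i) ^ 2 = 0 := by
    intro i hi
    have hj : σ.symm i ∉ S := fun h => hi (mem_image.2 ⟨_, h, σ.apply_symm_apply i⟩)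
    have h : φ i = 0 := by
      by_contra h
      obtain ⟨hm, he⟩ := he' i h
      exact hi (mem_image.2 ⟨_, hm, by rw [hσ _ hm, he]⟩)
    rw [hS _ hj, h]; simp
  refine le_trans ?_ hE
  calc ∑ i ∈ T, (φ (σ.symm i) - φ i) ^ 2
      = ∑ i ∈ T ∩ S.image σ, (φ (σ.symm i) - φ i) ^ 2 :=
        (sum_subset inter_subset_left fun i hiT hi => hout i fun h => hi (mem_inter.2 ⟨hiT, h⟩)).symm
    _ ≤ ∑ i ∈ S.image σ, (φ (σ.symm i) - φ i) ^ 2 :=
        sum_le_sum_of_subset_of_nonneg inter_subset_right fun i _ _ => sq_nonneg _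
    _ = ∑ i ∈ S, (φ (e i) - φ i) ^ 2 := by
        rw [sum_image fun a _ b _ h => σ.injective h]
        refine sum_congr rfl fun i hi => ?_
        rw [Equiv.symm_apply_apply, hσ i hi]
        ring

/-- A shear along points of profile one does not change the law. -/
theorem mapDomain_shear (S : Finset ι) {φ : ι → ℝ} (κ : Finset ι → Finset ι)
    (hκ : ∀ A, ∀ i ∈ κ A, i ∈ S ∧ φ i = 1) (hinv : ∀ A, κ (A ∆ κ A) = κ A) :
    (fieldMeasure S φ).mapDomain (fun A => A ∆ κ A) = fieldMeasure S φ := by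
  classical
  have hτ : Function.Involutive fun A => A ∆ κ A := fun A => by
    simp only [hinv]
    rw [symmDiff_assoc, symmDiff_self, symmDiff_bot]
  refine Finsupp.ext fun C => ?_
  conv_lhs => rw [← hτ C]
  rw [Finsupp.mapDomain_apply hτ.injective, fieldMeasure_apply, fieldMeasure_apply,
    fieldWeight_symmDiff (fun i hi => (hκ C i hi).1) fun i hi => (hκ C i hi).2]

/-- The pushforward of a random finite set is almost invariant under a map covered by a move and a
shear. -/
theorem norm1_push_le {V : Type*} (Φ : Finset ι → V) (T : V → V) (S : Finset ι) {e e' : ι → ι}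
    (κ : Finset ι → Finset ι) {φ : ι → ℝ}
    (h0 : ∀ i, 0 ≤ φ i) (h1 : ∀ i, φ i ≤ 1) (hS : ∀ i, i ∉ S → φ i = 0)
    (he : Set.InjOn e ↑S) (he' : ∀ i, φ i ≠ 0 → e' i ∈ S ∧ e (e' i) = i) {E : ℝ}
    (hE : ∑ i ∈ S, (φ (e i) - φ i) ^ 2 ≤ E)
    (hκ : ∀ A, ∀ i ∈ κ A, i ∈ S ∧ φ i = 1) (hinv : ∀ A, κ (A ∆ κ A) = κ A)
    (hT : ∀ A, A ⊆ S → T (Φ A) = Φ (A.image e ∆ κ (A.image e))) :
    norm1 (((fieldMeasure S φ).mapDomain Φ).mapDomain T - (fieldMeasure S φ).mapDomain Φ)
      ≤ 2 * Real.sqrt E := by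
  classical
  set μ := fieldMeasure S φ
  have e1 : (μ.mapDomain Φ).mapDomain T =
      ((μ.mapDomain fun A => A.image e).mapDomain fun A => A ∆ κ A).mapDomain Φ := by
    rw [← Finsupp.mapDomain_comp, ← Finsupp.mapDomain_comp, ← Finsupp.mapDomain_comp]
    refine Finsupp.mapDomain_congr fun A hA => hT A ?_
    rw [Finsupp.mem_support_iff, fieldMeasure_apply] at hA
    by_contra h
    exact hA (if_neg h)
  have e2 : μ.mapDomain Φ = (μ.mapDomain fun A => A ∆ κ A).mapDomain Φ := by
    rw [mapDomain_shear S κ hκ hinv]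
  rw [e1]
  conv_lhs => arg 1; arg 2; rw [e2]
  rw [← Finsupp.mapDomain_sub, ← Finsupp.mapDomain_sub]
  exact (Norm1.mapDomain_le _ _).trans ((Norm1.mapDomain_le _ _).trans
    (norm1_image_fieldMeasure_le S h0 h1 hS he he' hE))

end Vale.Agent.P196.Full.Law
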