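import Vale.Agent.P196.Cutoff

/-!
# P196: profiles with small energy between proportional scales

A linear ramp on `ℤ` and the logarithmic cutoff on `ℤ × ℤ`, with energy bounds that depend only on
the ratio of the two radii.
-/

open Finset

namespace Vale.Agent.P196.Full.Law

/-- The linear ramp: one up to `N`, zero from `2 N`. -/
noncomputable def ramp (N : ℕ) (k : ℤ) : ℝ := clamp01 ((2 * (N : ℝ) - |(k : ℝ)|) / N)

lemma ramp_mem (N : ℕ) (k : ℤ) : 0 ≤ ramp N k ∧ ramp N k ≤ 1 := clamp01_mem _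

lemma ramp_one {N : ℕ} (hN : 0 < N) {k : ℤ} (hk : k.natAbs ≤ N) : ramp N k = 1 := by
  have hN' : (0 : ℝ) < N := by exact_mod_cast hN
  have h : |(k : ℝ)| ≤ N := by rw [← Int.cast_abs, ← Nat.cast_natAbs]; exact_mod_cast hk
  unfold ramp clamp01
  rw [min_eq_left ((one_le_div hN').2 (by linarith))]
  simp

lemma ramp_zero {N : ℕ} {k : ℤ} (hk : 2 * N ≤ k.natAbs) : ramp N k = 0 := by
  have h : (2 : ℝ) * N ≤ |(k : ℝ)| := by rw [← Int.cast_abs, ← Nat.cast_natAbs]; exact_mod_cast hk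
  unfold ramp clamp01
  exact max_eq_left ((min_le_right _ _).trans
    (div_nonpos_of_nonpos_of_nonneg (by linarith) (Nat.cast_nonneg N)))

lemma ramp_sub_sq {N R : ℕ} {k k' : ℤ} (h : (k' - k).natAbs ≤ R) :
    (ramp N k' - ramp N k) ^ 2 ≤ (R : ℝ) ^ 2 / (N : ℝ) ^ 2 := by
  have h' : |(k : ℝ) - k'| ≤ R := by
    rw [abs_sub_comm, ← Int.cast_sub, ← Int.cast_abs, ← Nat.cast_natAbs]
    exact_mod_cast h
  have hd : |ramp N k' - ramp N k| ≤ R / N := by
    refine (abs_clamp01_sub _ _).trans ?_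
    rw [← sub_div, abs_div, Nat.abs_cast, sub_sub_sub_cancel_left]
    exact div_le_div_of_nonneg_right ((abs_abs_sub_abs_le_abs_sub _ _).trans h') (Nat.cast_nonneg N)
  rw [← sq_abs, ← div_pow]
  exact pow_le_pow_left₀ (abs_nonneg _) hd 2

lemma inv_succ_le_log (r : ℕ) (hr : 1 ≤ r) :
    1 / ((r : ℝ) + 1) ≤ Real.log ((r : ℝ) + 1) - Real.log r := by
  have h1 : (0 : ℝ) < r := by exact_mod_cast hr
  have h := Real.log_le_sub_one_of_pos (div_pos h1 (by linarith : (0 : ℝ) < (r : ℝ) + 1))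
  rw [Real.log_div h1.ne' (by linarith)] at h
  have e : (r : ℝ) / ((r : ℝ) + 1) - 1 = -(1 / ((r : ℝ) + 1)) := by field_simp; ring
  linarith

lemma sum_inv_succ_le {a : ℕ} (ha : 1 ≤ a) : ∀ {b : ℕ}, a ≤ b →
    ∑ r ∈ Ico a b, 1 / ((r : ℝ) + 1) ≤ Real.log b - Real.log a := by
  intro b hab
  induction b, hab using Nat.le_induction with
  | base => simp
  | succ b hab ih =>
    rw [sum_Ico_succ_top hab]
    have := inv_succ_le_log b (ha.trans hab)
    push_cast
    linarith

/-- The logarithmic ratio of two radii. -/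
noncomputable def logRatio (K M : ℕ) : ℝ := Real.log ((M : ℝ) + 1) - Real.log ((K : ℝ) + 1)

lemma logRatio_pos {K M : ℕ} (h : K < M) : 0 < logRatio K M :=
  sub_pos.2 (Real.log_lt_log (by positivity) (by exact_mod_cast Nat.succ_lt_succ h))

lemma logProfile_move {K M R r r' : ℕ} (hKM : K < M) (hR : 3 * R ≤ K) (h1 : r' ≤ r + R)
    (h2 : r ≤ r' + R) :
    (logProfile K M r' - logProfile K M r) ^ 2 ≤
      if K ≤ r + R ∧ r ≤ M + R then 4 * (R : ℝ) ^ 2 / ((r : ℝ) + 1) ^ 2 / logRatio K M ^ 2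
      else 0 := by
  split_ifs with h
  · have hL := logRatio_pos hKM
    have hd : |logProfile K M r' - logProfile K M r| ≤ 2 * R / ((r : ℝ) + 1) / logRatio K M := by
      refine (abs_clamp01_sub _ _).trans ?_
      rw [show Real.log ((M : ℝ) + 1) - Real.log ((K : ℝ) + 1) = logRatio K M from rfl, ← sub_div,
        abs_div, abs_of_pos hL, sub_sub_sub_cancel_left]
      refine div_le_div_of_nonneg_right ?_ hL.le
      refine (abs_log_sub_le (by positivity) (by positivity)).trans ?_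
      have e1 : ((r' : ℝ)) ≤ r + R := by exact_mod_cast h1
      have e2 : ((r : ℝ)) ≤ r' + R := by exact_mod_cast h2
      have hab : |(r : ℝ) + 1 - ((r' : ℝ) + 1)| ≤ R := abs_le.2 ⟨by linarith, by linarith⟩
      have hnat : r + 1 ≤ 2 * (r' + 1) := by omega
      have hr : (r : ℝ) + 1 ≤ 2 * ((r' : ℝ) + 1) := by exact_mod_cast hnat
      have hmin : ((r : ℝ) + 1) / 2 ≤ min ((r : ℝ) + 1) ((r' : ℝ) + 1) :=
        le_min (by linarith [(Nat.cast_nonneg r : (0 : ℝ) ≤ r)]) (by linarith)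
      calc |(r : ℝ) + 1 - ((r' : ℝ) + 1)| / min ((r : ℝ) + 1) ((r' : ℝ) + 1)
          ≤ R / (((r : ℝ) + 1) / 2) := div_le_div₀ (Nat.cast_nonneg R) hab (by positivity) hmin
        _ = 2 * R / ((r : ℝ) + 1) := by field_simp
    calc (logProfile K M r' - logProfile K M r) ^ 2
        = |logProfile K M r' - logProfile K M r| ^ 2 := (sq_abs _).symm
      _ ≤ (2 * R / ((r : ℝ) + 1) / logRatio K M) ^ 2 := pow_le_pow_left₀ (abs_nonneg _) hd 2
      _ = _ := by rw [div_pow, div_pow, mul_pow]; norm_num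
  · rcases not_and_or.1 h with h | h
    · rw [logProfile_one hKM (by omega), logProfile_one hKM (by omega)]; simp
    · rw [logProfile_zero hKM (by omega), logProfile_zero hKM (by omega)]; simp

/-- The energy of the logarithmic profile under moves of length at most `R`. -/
theorem logProfile_energy {K M R : ℕ} (hKM : K < M) (hR : 3 * R + 1 ≤ K) (T : Finset (ℤ × ℤ))
    (y : ℤ × ℤ → ℤ × ℤ) (hy : ∀ x ∈ T, latNorm (y x) ≤ latNorm x + R ∧ latNorm x ≤ latNorm (y x) + R) :
    ∑ x ∈ T, (logProfile K M (latNorm (y x)) - logProfile K M (latNorm x)) ^ 2 ≤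
      32 * (R : ℝ) ^ 2 * (logRatio K M + 3) / logRatio K M ^ 2 := by
  classical
  set L := logRatio K M with hLdef
  have hL : 0 < L := logRatio_pos hKM
  set J := Ico (K - R) (M + R + 1) with hJ
  set T' := T.filter fun x => latNorm x ∈ J with hT'
  have hiff : ∀ r : ℕ, r ∈ J ↔ K ≤ r + R ∧ r ≤ M + R := fun r => by
    rw [hJ, mem_Ico]; omega
  calc ∑ x ∈ T, (logProfile K M (latNorm (y x)) - logProfile K M (latNorm x)) ^ 2
      ≤ ∑ x ∈ T, (if latNorm x ∈ J then 4 * (R : ℝ) ^ 2 / ((latNorm x : ℝ) + 1) ^ 2 / L ^ 2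
          else 0) := by
        refine sum_le_sum fun x hx =>
          (logProfile_move hKM (by omega) (hy x hx).1 (hy x hx).2).trans_eq ?_
        simp only [hiff, L]
    _ = ∑ x ∈ T', 4 * (R : ℝ) ^ 2 / ((latNorm x : ℝ) + 1) ^ 2 / L ^ 2 := (sum_filter _ _).symm
    _ = ∑ r ∈ J, (T'.filter fun x => latNorm x = r).card
          * (4 * (R : ℝ) ^ 2 / ((r : ℝ) + 1) ^ 2 / L ^ 2) := by
        rw [← sum_fiberwise_of_maps_to (g := latNorm) (t := J) (fun x hx => (mem_filter.1 hx).2)]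
        refine sum_congr rfl fun r _ => ?_
        rw [sum_congr rfl (g := fun _ => 4 * (R : ℝ) ^ 2 / ((r : ℝ) + 1) ^ 2 / L ^ 2)
          (fun x hx => by simp only [(mem_filter.1 hx).2]), sum_const, nsmul_eq_mul]
    _ ≤ ∑ r ∈ J, 32 * (R : ℝ) ^ 2 / L ^ 2 * (1 / ((r : ℝ) + 1)) := by
        refine sum_le_sum fun r _ => ?_
        calc ((T'.filter fun x => latNorm x = r).card : ℝ) *
              (4 * (R : ℝ) ^ 2 / ((r : ℝ) + 1) ^ 2 / L ^ 2)
            ≤ (8 * (r : ℝ) + 8) * (4 * (R : ℝ) ^ 2 / ((r : ℝ) + 1) ^ 2 / L ^ 2) := by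
              refine mul_le_mul_of_nonneg_right ?_ (by positivity)
              exact_mod_cast card_latNorm_eq_le T' r
          _ = 32 * (R : ℝ) ^ 2 / L ^ 2 * (1 / ((r : ℝ) + 1)) := by field_simp; ring
    _ ≤ 32 * (R : ℝ) ^ 2 / L ^ 2 * (L + 3) := by
        rw [← mul_sum]
        refine mul_le_mul_of_nonneg_left ((sum_inv_succ_le (by omega) (by omega)).trans ?_)
          (by positivity)
        have ha : (K : ℝ) + 1 ≤ 4 * ((K - R : ℕ) : ℝ) := by
          exact_mod_cast (show K + 1 ≤ 4 * (K - R) by omega)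
        have hb : ((M + R + 1 : ℕ) : ℝ) ≤ 2 * ((M : ℝ) + 1) := by
          exact_mod_cast (show M + R + 1 ≤ 2 * (M + 1) by omega)
        have hpa : (0 : ℝ) < ((K - R : ℕ) : ℝ) := by
          linarith [(Nat.cast_nonneg K : (0 : ℝ) ≤ K)]
        have h1 := Real.log_le_log (by positivity) hb
        have h2 := Real.log_le_log (by positivity) ha
        rw [Real.log_mul (by norm_num) (by positivity)] at h1
        rw [Real.log_mul (by norm_num) hpa.ne', show (4 : ℝ) = 2 * 2 by norm_num,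
          Real.log_mul (by norm_num) (by norm_num)] at h2
        simp only [hLdef, logRatio]
        have := Real.log_two_lt_d9
        linarith
    _ = 32 * (R : ℝ) ^ 2 * (L + 3) / L ^ 2 := by ring

end Vale.Agent.P196.Full.Law
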