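import Vale.Agent.P196.Full.Amenable.Law.Frame
import Vale.Agent.P196.Full.Amenable.Law.Moves
import Vale.Agent.P196.Full.Amenable.Law.Profiles

/-!
# P196: an almost invariant law on the functions over a fault row

Random sums of base cells and of fine cells near the channels, with a ramp profile on the base
cells and a logarithmic profile on the fine cells.
-/

open Finset
open scoped symmDiff

namespace Vale.Agent.P196.Full.Law

lemma zmod_two_symm : ∀ a b c : ZMod 2, a - c + (b - c) = a + b := by decide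

lemma zmod_two_ite : ∀ t u : ZMod 2, (if t = 1 then u else 0) = t * u := by decide

namespace Frame

variable {X α : Type} {F : Frame X α} {n R : ℕ}

/-- A permutation given by the observation, together with its inverse. -/
structure Move (F : Frame X α) (n R : ℕ) where
  /-- The permutation. -/
  g : Equiv.Perm (Pt X n)
  /-- Its displacement. -/
  fw : α → Fin n → Lat × Fin n
  /-- The displacement of its inverse. -/
  bw : α → Fin n → Lat × Fin n
  fw_eq : ∀ p, g p = (F.sh (fw (F.f p.1) p.2).1 p.1, (fw (F.f p.1) p.2).2)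
  bw_eq : ∀ p, g.symm p = (F.sh (bw (F.f p.1) p.2).1 p.1, (bw (F.f p.1) p.2).2)
  fw_le : ∀ a c, Small R (fw a c).1
  bw_le : ∀ a c, Small R (bw a c).1

/-- The inverse move. -/
def Move.inv (m : Move F n R) : Move F n R :=
  ⟨m.g.symm, m.bw, m.fw, m.bw_eq, m.fw_eq, m.bw_le, m.fw_le⟩

/-- An index shifted by a displacement. -/
def shiftIdx (i : F.BIdx n) (v : Lat × Fin n) : F.BIdx n :=
  (i.1, i.2.1 + (v.1.1 : ZMod F.W), i.2.2.1 + v.1.2, v.2)

/-- The move of base indices. -/
def Move.eB (m : Move F n R) (i : F.BIdx n) : F.BIdx n :=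
  shiftIdx i (m.fw (F.fgen i.1 i.2.1 i.2.2.1) i.2.2.2)

open Classical in
/-- The move of fine indices. -/
noncomputable def Move.eF (m : Move F n R) (i : F.FIdx n) : F.FIdx n :=
  if h : i.2.1 ∈ F.sq then
    (i.1, i.2.1 + (m.fw (i.1.2 ⟨i.2.1, h⟩) i.2.2).1, (m.fw (i.1.2 ⟨i.2.1, h⟩) i.2.2).2)
  else i

theorem Move.idx_apply (m : Move F n R) {p : Pt X n} (h : F.OnLev p.1) :
    F.idx (m.g p) = ((F.half (F.al p.1 + ((m.fw (F.f p.1) p.2).1.1 : ZMod F.W'))),
      (shiftIdx (F.idx p) (m.fw (F.f p.1) p.2)).2) := by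
  rw [m.fw_eq, F.idx_sh _ _ h]
  rfl

theorem Move.onLev_apply (m : Move F n R) (p : Pt X n) : F.OnLev (m.g p).1 ↔ F.OnLev p.1 := by
  refine ⟨fun h => ?_, fun h => ?_⟩
  · rw [m.fw_eq] at h
    have := F.onLev_sh (-(m.fw (F.f p.1) p.2).1) h
    rwa [F.sh_neg_cancel] at this
  · rw [m.fw_eq]
    exact F.onLev_sh _ h

theorem Move.eB_inv (m : Move F n R) (hR : R ≤ F.W) {i : F.BIdx n}
    (hk : 8 * (i.2.2.1.natAbs + R) ≤ F.D) : m.inv.eB (m.eB i) = i := by
  obtain ⟨b, a, k, c⟩ := i
  set P : Pt X n := (F.sh (0, k) (F.rep b a), c) with hP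
  have hlev : F.AtLev P.1 k := by
    have := F.atLev_sh ((0 : ℤ), k) (x := F.rep b a) (k := 0) (by
      rw [AtLev, show ((0 : ℤ), -(0 : ℤ)) = 0 by simp, F.sh_zero]; exact F.rep_mem b a)
    simpa [P] using this
  have hhalf : ∀ j : ℤ, j.natAbs ≤ 2 * F.W → F.half (F.al P.1 + (j : ZMod F.W')) = b :=
    fun j hj => by
      have := F.half_rep b a hj
      rw [F.al_sh] at this
      simpa [P, F.al_sh] using this
  have hidx : F.idx P = (b, a, k, c) := by
    have h0 : F.half (F.al P.1) = b := by simpa using hhalf 0 (by simp)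
    simp only [idx, F.lev_eq hlev, h0]
    simp [P, F.sm_sh, F.sm_rep]
  set v := m.fw (F.fgen b a k) c with hv
  have hb := m.fw_le (F.fgen b a k) c
  rw [← hv] at hb
  obtain ⟨hb1, hb2⟩ := hb
  have hg : F.idx (m.g P) = m.eB (b, a, k, c) := by
    rw [m.idx_apply ⟨_, hlev⟩, hidx]
    exact Prod.ext (hhalf _ (show v.1.1.natAbs ≤ _ by omega)) rfl
  have hQ1 : (m.g P).1 = F.sh v.1 P.1 := by rw [m.fw_eq]; rfl
  have hQlev : F.AtLev (m.g P).1 (k + v.1.2) := hQ1 ▸ F.atLev_sh v.1 hlev
  have hk' : 8 * (k + v.1.2).natAbs ≤ F.D := by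
    have : k.natAbs + R ≥ (k + v.1.2).natAbs := by omega
    simp only at hk
    omega
  have hfar : F.Far (F.sh (0, -(k + v.1.2)) (m.g P).1) (k + v.1.2) := by
    have e : F.sh (0, -(k + v.1.2)) (m.g P).1 = F.sh (v.1.1, 0) (F.rep b a) := by
      rw [hQ1, hP]
      simp only [F.sh_sh]
      congr 1
      ext <;> simp
      ring
    rw [e]
    exact F.far_rep b a (by omega) hk'
  have hf := F.f_eq_fgen hQlev hk' hfar
  have hha : F.half (F.al (m.g P).1) = (m.eB (b, a, k, c)).1 := congrArg (fun q => q.1) hg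
  have hsm : F.sm (m.g P).1 = (m.eB (b, a, k, c)).2.1 := congrArg (fun q => q.2.1) hg
  have hl : k + v.1.2 = (m.eB (b, a, k, c)).2.2.1 := rfl
  have hc : (m.g P).2 = (m.eB (b, a, k, c)).2.2.2 := congrArg (fun q => q.2.2.2) hg
  have h2 := m.inv.idx_apply (p := m.g P) ⟨_, hQlev⟩
  change F.idx (m.g.symm (m.g P)) = _ at h2
  rw [Equiv.symm_apply_apply, hidx, hg, hf, hha, hsm, hl, hc] at h2
  exact Prod.ext rfl (congrArg (fun q => q.2) h2).symm

theorem Move.cellB_image [Finite α] (m : Move F n R) (hR : R ≤ F.W) {H : ℕ}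
    (hH : 8 * (H + R) ≤ F.D) {i : F.BIdx n} (hi : i.2.2.1.natAbs + R ≤ H)
    (hJ : 2 * H + F.C₀ * F.W ≤ F.D) :
    ∃ coef : F.FIdx n → ZMod 2, ∀ p, F.cellB i (m.g.symm p) =
      F.cellB (m.eB i) p + ∑ z ∈ F.zone H, coef z * F.cellF z p := by
  classical
  set Ψ : α → ZMod F.W' → F.BIdx n → ZMod 2 := fun a al i' =>
    if ((F.half (al + ((m.bw a i'.2.2.2).1.1 : ZMod F.W')),
      (shiftIdx i' (m.bw a i'.2.2.2)).2) : F.BIdx n) = i then 1 else 0 with hΨ
  set G : F.BIdx n → ZMod 2 := fun i' => if m.inv.eB i' = i then 1 else 0 with hG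
  obtain ⟨coef, hcoef⟩ := F.banded_eq (n := n) (H := H) (by omega) hJ Ψ G
    fun p _ _ hfar hfp => by
      have hb := (m.bw_le (F.f p.1) p.2).1
      have e : F.al (F.sh (0, -F.lev p.1) p.1) = F.al p.1 := by simp [F.al_sh]
      have hh := F.half_far hfar (j := (m.bw (F.f p.1) p.2).1.1) (by omega)
      rw [e] at hh
      simp only [hΨ, hG, show (F.idx p).2.2.2 = p.2 from rfl, hh]
      show _ = if shiftIdx (F.idx p) (m.bw (F.fgen _ _ _) p.2) = i then _ else _
      rw [← hfp]
      rfl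
  refine ⟨coef, fun p => ?_⟩
  have e1 : F.cellB i (m.g.symm p) = F.banded H Ψ p := by
    have hon : F.OnLev (m.g.symm p).1 ↔ F.OnLev p.1 := m.inv.onLev_apply p
    simp only [cellB, banded, hon]
    by_cases h : F.OnLev p.1
    · have hidx := m.inv.idx_apply (p := p) h
      change F.idx (m.g.symm p) = _ at hidx
      simp only [h, true_and, hidx, hΨ, show (F.idx p).2.2.2 = p.2 from rfl,
        show m.inv.fw = m.bw from rfl]
      split_ifs with h2 h3 <;> try rfl
      exfalso
      have hl : F.lev p.1 + (m.bw (F.f p.1) p.2).1.2 = i.2.2.1 := congrArg (fun q => q.2.2.1) h2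
      have hb := (m.bw_le (F.f p.1) p.2).2
      omega
    · simp [h]
  rw [e1, hcoef p]
  congr 1
  have hpt : ∀ i' ∈ F.boxB (n := n) H, G i' * F.cellB i' p =
      if i' = m.eB i then F.cellB i' p else 0 := by
    intro i' hi'
    have hk' : i'.2.2.1.natAbs ≤ H := F.mem_boxB.1 hi'
    have hiff : m.inv.eB i' = i ↔ i' = m.eB i := by
      refine ⟨fun h => ?_, fun h => ?_⟩
      · have := m.inv.eB_inv hR (i := i') (by omega)
        rw [h] at this
        exact this.symm
      · subst h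
        exact m.eB_inv hR (by omega)
    simp only [G, hiff]
    split_ifs <;> simp
  rw [sum_congr rfl hpt, sum_ite_eq', if_pos]
  refine F.mem_boxB.2 ?_
  have hb := (m.fw_le (F.fgen i.1 i.2.1 i.2.2.1) i.2.2.2).2
  show (i.2.2.1 + _).natAbs ≤ H
  omega

theorem Move.inF_apply (m : Move F n R) {i : F.FIdx n} (hs : Small F.D i.2.1) (p : Pt X n) :
    F.InF i p → F.InF (m.eF i) (m.g p) := by
  intro h
  have hm : i.2.1 ∈ F.sq := F.mem_sq.2 hs
  rw [Move.eF, dif_pos hm, m.fw_eq, h.f_eq hm, h.1]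
  refine ⟨rfl, ?_⟩
  simp only [F.sh_sh]
  convert h.2 using 2
  ext <;> simp

theorem Move.eF_small (m : Move F n R) {r : ℕ} {i : F.FIdx n} (hs : Small r i.2.1) :
    Small (r + R) (m.eF i).2.1 := by
  unfold Move.eF
  split_ifs with h
  · have hb := m.fw_le (i.1.2 ⟨i.2.1, h⟩) i.2.2
    simp only [Small, Prod.fst_add, Prod.snd_add] at hs hb ⊢
    omega
  · simp only [Small] at hs ⊢
    omega

theorem Move.eF_fst (m : Move F n R) (i : F.FIdx n) : (m.eF i).1 = i.1 := by
  unfold Move.eF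
  split_ifs <;> rfl

theorem Move.eF_inv (m : Move F n R) {i : F.FIdx n} (hne : (F.chan i.1).Nonempty)
    (hs : Small F.D i.2.1) (hs' : Small F.D (m.eF i).2.1)
    (hs'' : Small F.D (m.inv.eF (m.eF i)).2.1) : m.inv.eF (m.eF i) = i := by
  obtain ⟨z, hz⟩ := hne
  set P : Pt X n := (F.sh i.2.1 z, i.2.2)
  have hP : F.InF i P := ⟨rfl, by simpa [P, F.sh_neg_cancel] using hz⟩
  have h1 := m.inF_apply hs P hP
  have h2 := m.inv.inF_apply hs' _ h1
  change F.InF _ (m.g.symm (m.g P)) at h2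
  rw [Equiv.symm_apply_apply] at h2
  exact h2.unique hP hs'' hs

theorem Move.cellF_image (m : Move F n R) {i : F.FIdx n} {r : ℕ} (hs : Small r i.2.1)
    (hr : r + 2 * R ≤ F.D) (p : Pt X n) : F.cellF i (m.g.symm p) = F.cellF (m.eF i) p := by
  classical
  have hs0 : Small F.D i.2.1 := ⟨by have := hs.1; omega, by have := hs.2; omega⟩
  have hs1 := m.eF_small hs
  have hs1' : Small F.D (m.eF i).2.1 := ⟨by have := hs1.1; omega, by have := hs1.2; omega⟩
  have hs2 := m.inv.eF_small hs1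
  have hs2' : Small F.D (m.inv.eF (m.eF i)).2.1 :=
    ⟨by have := hs2.1; omega, by have := hs2.2; omega⟩
  simp only [cellF]
  refine if_congr ⟨fun h => ?_, fun h => ?_⟩ rfl rfl
  · simpa using m.inF_apply hs0 _ h
  · have hne : (F.chan i.1).Nonempty := m.eF_fst i ▸ ⟨_, h.2⟩
    have := m.inv.inF_apply hs1' p h
    rwa [m.eF_inv hne hs0 hs1' hs2'] at this

variable (F)

/-- The indices of all cells. -/
abbrev Cell (n : ℕ) := F.BIdx n ⊕ F.FIdx n

/-- A cell. -/
noncomputable def cell : F.Cell n → Pt X n → ZMod 2 := Sum.elim F.cellB F.cellF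

/-- The function of a finite set of cells. -/
noncomputable def total (A : Finset (F.Cell n)) : Pt X n → ZMod 2 := ∑ i ∈ A, F.cell i

open Classical in
theorem total_symmDiff (A B : Finset (F.Cell n)) :
    F.total (A ∆ B) = F.total A + F.total B := by
  simp only [total]
  rw [show A ∆ B = (A \ B) ∪ (B \ A) from rfl, sum_union disjoint_sdiff_sdiff]
  have h1 := sum_sdiff_eq_sub (f := F.cell) (inter_subset_left : A ∩ B ⊆ A)
  have h2 := sum_sdiff_eq_sub (f := F.cell) (inter_subset_right : A ∩ B ⊆ B)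
  rw [sdiff_inter_self_left] at h1
  rw [inter_comm A B, sdiff_inter_self_left] at h2
  rw [h1, h2, inter_comm B A]
  funext p
  simp only [Pi.add_apply, Pi.sub_apply]
  generalize (∑ x ∈ A, F.cell x) p = a
  generalize (∑ x ∈ B, F.cell x) p = b
  generalize (∑ x ∈ A ∩ B, F.cell x) p = c
  exact zmod_two_symm a b c

variable [Finite α]

/-- The carrier of the random set. -/
noncomputable def carrier (N M R : ℕ) : Finset (F.Cell n) :=
  (F.boxB (2 * N + R)).disjSum
    (F.qset ×ˢ ((Icc (-((M + R : ℕ) : ℤ)) (M + R : ℕ) ×ˢ Icc (-((M + R : ℕ) : ℤ)) (M + R : ℕ))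
      ×ˢ univ))

open Classical in
/-- The profile. -/
noncomputable def profile (N K M : ℕ) : F.Cell n → ℝ :=
  Sum.elim (fun i => ramp N i.2.2.1)
    fun i => if i.1 ∈ F.qset then logProfile K M (latNorm i.2.1) else 0

theorem inr_mem_carrier {N M R : ℕ} {i : F.FIdx n} :
    Sum.inr i ∈ F.carrier (n := n) N M R ↔ i.1 ∈ F.qset ∧ latNorm i.2.1 ≤ M + R := by
  simp only [carrier, inr_mem_disjSum, mem_product, mem_univ, and_true, mem_Icc, latNorm]
  generalize M + R = T
  constructor <;> rintro ⟨h0, h⟩ <;> exact ⟨h0, by omega⟩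

theorem inl_mem_carrier {N M R : ℕ} {i : F.BIdx n} :
    Sum.inl i ∈ F.carrier (n := n) N M R ↔ i.2.2.1.natAbs ≤ 2 * N + R := by
  simp only [carrier, inl_mem_disjSum, mem_boxB]

theorem profile_mem (N K M : ℕ) (i : F.Cell n) :
    0 ≤ F.profile N K M i ∧ F.profile N K M i ≤ 1 := by
  classical
  rcases i with i | i
  · exact ramp_mem _ _
  · simp only [profile, Sum.elim_inr]
    split_ifs
    exacts [clamp01_mem _, ⟨le_rfl, zero_le_one⟩]

open Classical in
/-- The law. -/
noncomputable def law (N K M R : ℕ) : (Pt X n → ZMod 2) →₀ ℝ :=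
  (fieldMeasure (F.carrier N M R) (F.profile N K M)).mapDomain F.total

theorem law_nonneg (N K M R : ℕ) : 0 ≤ F.law (n := n) N K M R := by
  classical
  exact Norm1.mapDomain_nonneg _ (fieldMeasure_nonneg _ (fun i => (F.profile_mem N K M i).1)
    fun i => (F.profile_mem N K M i).2)

theorem norm1_law (N K M R : ℕ) : norm1 (F.law (n := n) N K M R) = 1 := by
  classical
  have h0 := fun i : F.Cell n => (F.profile_mem N K M i).1
  have h1 := fun i : F.Cell n => (F.profile_mem N K M i).2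
  exact (Norm1.mapDomain_of_nonneg _ (fieldMeasure_nonneg _ h0 h1)).trans
    (norm1_fieldMeasure _ h0 h1)

theorem profile_eq_zero {N K M : ℕ} (hKM : K < M) (R : ℕ) (i : F.Cell n)
    (hi : i ∉ F.carrier N M R) : F.profile N K M i = 0 := by
  classical
  rcases i with i | i
  · rw [F.inl_mem_carrier] at hi
    exact ramp_zero (by omega)
  · simp only [profile, Sum.elim_inr]
    split_ifs with h
    · exact logProfile_zero hKM (by
        by_contra h'
        exact hi (F.inr_mem_carrier.2 ⟨h, by omega⟩))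
    · rfl

/-- The energy bound of the law. -/
noncomputable def energy (n N K M R : ℕ) : ℝ :=
  (F.boxB (n := n) (2 * N + R)).card * ((R : ℝ) ^ 2 / (N : ℝ) ^ 2) +
    F.qset.card * (n * (32 * (R : ℝ) ^ 2 * (logRatio K M + 3) / logRatio K M ^ 2))

open Classical in
/-- The corrections of the base cells present after a move. -/
noncomputable def shearSet (m : Move F n R) (T H : ℕ) (coef : F.BIdx n → F.FIdx n → ZMod 2)
    (A : Finset (F.Cell n)) : Finset (F.Cell n) :=
  ((F.zone H).filter fun z => ∑ i ∈ (F.boxB (n := n) T).filter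
    (fun i => Sum.inl (m.eB i) ∈ A), coef i z = 1).map Function.Embedding.inr

theorem mem_shearSet (m : Move F n R) (T H : ℕ) (coef : F.BIdx n → F.FIdx n → ZMod 2)
    (A : Finset (F.Cell n)) {i : F.Cell n} (hi : i ∈ F.shearSet m T H coef A) :
    ∃ z ∈ F.zone H, i = Sum.inr z := by
  simp only [shearSet, mem_map, mem_filter, Function.Embedding.inr_apply] at hi
  obtain ⟨z, ⟨hz, -⟩, rfl⟩ := hi
  exact ⟨z, hz, rfl⟩

open Classical in
theorem shearSet_symmDiff (m : Move F n R) (T H : ℕ) (coef : F.BIdx n → F.FIdx n → ZMod 2)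
    (A C : Finset (F.Cell n)) (hC : ∀ i ∈ C, ∃ z, i = Sum.inr z) :
    F.shearSet m T H coef (A ∆ C) = F.shearSet m T H coef A := by
  have hmem : ∀ i, Sum.inl i ∈ A ∆ C ↔ Sum.inl i ∈ A := fun i => by
    have : Sum.inl i ∉ C := fun h => by
      obtain ⟨z, hz⟩ := hC _ h
      exact Sum.inl_ne_inr hz
    simp [mem_symmDiff, this]
  simp only [shearSet, hmem]

open Classical in
theorem sum_shearSet (m : Move F n R) (T H : ℕ) (coef : F.BIdx n → F.FIdx n → ZMod 2)
    (A : Finset (F.Cell n)) (p : Pt X n) :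
    ∑ x ∈ F.shearSet m T H coef A, F.cell x p =
      ∑ i ∈ (F.boxB (n := n) T).filter (fun i => Sum.inl (m.eB i) ∈ A),
        ∑ z ∈ F.zone H, coef i z * F.cellF z p := by
  simp only [shearSet, sum_map, Function.Embedding.inr_apply, cell, Sum.elim_inr]
  rw [sum_comm, sum_filter]
  exact sum_congr rfl fun z _ => by rw [zmod_two_ite, sum_mul]

/-- The law is almost invariant under a move. -/
theorem norm1_law_move {N K M R : ℕ} (m : Move F n R) (hN : 0 < N) (hR : R ≤ F.W)
    (hD : 8 * (2 * N + 3 * R) ≤ F.D) (hK : 3 * R + 1 ≤ K)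
    (hK' : 2 * (2 * N + 2 * R) + F.C₀ * F.W ≤ K) (hKM : K < M) (hM : M + 3 * R ≤ F.D) :
    norm1 ((F.law (n := n) N K M R).mapDomain (fun u => u ∘ m.g.symm) - F.law N K M R)
      ≤ 2 * Real.sqrt (F.energy n N K M R) := by
  classical
  set S := F.carrier (n := n) N M R with hS
  set e : F.Cell n → F.Cell n := Sum.map m.eB m.eF
  set e' : F.Cell n → F.Cell n := Sum.map m.inv.eB m.inv.eF
  set H := 2 * N + 2 * R with hH
  have hco : ∀ i : F.BIdx n, ∃ coef : F.FIdx n → ZMod 2, i.2.2.1.natAbs ≤ 2 * N + R →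
      ∀ p, F.cellB i (m.g.symm p) =
        F.cellB (m.eB i) p + ∑ z ∈ F.zone H, coef z * F.cellF z p := fun i => by
    by_cases h : i.2.2.1.natAbs ≤ 2 * N + R
    · obtain ⟨coef, hc⟩ := m.cellB_image hR (H := H) (by omega) (i := i) (by omega) (by omega)
      exact ⟨coef, fun _ => hc⟩
    · exact ⟨0, fun h' => absurd h' h⟩
  choose coef hcoef using hco
  have hsmall : ∀ {i : F.FIdx n}, Sum.inr i ∈ S → Small (M + R) i.2.1 := fun {i} hi => by
    have h := (F.inr_mem_carrier.1 hi).2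
    simp only [latNorm] at h
    exact ⟨by omega, by omega⟩
  have hD' : ∀ {r : ℕ} {jk : ℤ × ℤ}, Small r jk → r ≤ F.D → Small F.D jk := fun h hr =>
    ⟨h.1.trans hr, h.2.trans hr⟩
  have hinj : Set.InjOn e ↑S := by
    have hl : ∀ i ∈ S, e' (e i) = i := by
      rintro (i | i) hi
      · have h := F.inl_mem_carrier.1 hi
        exact congrArg Sum.inl (m.eB_inv hR (by omega))
      · refine congrArg Sum.inr (m.eF_inv ((F.mem_qset).1 (F.inr_mem_carrier.1 hi).1)
          (hD' (hsmall hi) (by omega)) (hD' (m.eF_small (hsmall hi)) (by omega))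
          (hD' (m.inv.eF_small (m.eF_small (hsmall hi))) (by omega)))
    intro a ha b hb h
    rw [← hl a ha, ← hl b hb, h]
  have hsupp : ∀ i, F.profile N K M i ≠ 0 → e' i ∈ S ∧ e (e' i) = i := by
    rintro (i | i) hi
    · have hi' : i.2.2.1.natAbs < 2 * N := by
        by_contra h
        exact hi (ramp_zero (not_lt.1 h))
      have hb := (m.bw_le (F.fgen i.1 i.2.1 i.2.2.1) i.2.2.2).2
      refine ⟨F.inl_mem_carrier.2 ?_, congrArg Sum.inl (m.inv.eB_inv hR (by omega))⟩
      show (i.2.2.1 + (m.bw (F.fgen i.1 i.2.1 i.2.2.1) i.2.2.2).1.2).natAbs ≤ _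
      omega
    · simp only [profile, Sum.elim_inr, ne_eq, ite_eq_right_iff, Classical.not_imp] at hi
      have hq := hi.1
      have hM' : latNorm i.2.1 < M := by
        by_contra h
        exact hi.2 (logProfile_zero hKM (not_lt.1 h))
      have hs : Small M i.2.1 := by
        simp only [latNorm] at hM'
        exact ⟨by omega, by omega⟩
      have hs2 := m.inv.eF_small hs
      refine ⟨F.inr_mem_carrier.2 ⟨by rw [Move.eF_fst]; exact hq, ?_⟩,
        congrArg Sum.inr (m.inv.eF_inv ((F.mem_qset).1 hq) (hD' hs (by omega))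
          (hD' hs2 (by omega)) (hD' (m.inv.inv.eF_small hs2) (by omega)))⟩
      simp only [latNorm, Small] at hs2 ⊢
      omega
  have hE : ∑ i ∈ S, (F.profile N K M (e i) - F.profile N K M i) ^ 2 ≤ F.energy n N K M R := by
    rw [hS, carrier, sum_disjSum, energy]
    refine add_le_add ((sum_le_card_nsmul _ _ ((R : ℝ) ^ 2 / (N : ℝ) ^ 2) fun i _ => ?_).trans_eq
      (nsmul_eq_mul _ _)) ?_
    · refine ramp_sub_sq ?_
      show (i.2.2.1 + (m.fw (F.fgen i.1 i.2.1 i.2.2.1) i.2.2.2).1.2 - i.2.2.1).natAbs ≤ R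
      have := (m.fw_le (F.fgen i.1 i.2.1 i.2.2.1) i.2.2.2).2
      omega
    · rw [sum_product]
      refine (sum_le_card_nsmul _ _ _ fun cq hcq => ?_).trans_eq (nsmul_eq_mul _ _)
      rw [sum_product_right]
      refine (sum_le_card_nsmul _ _ (32 * (R : ℝ) ^ 2 * (logRatio K M + 3) / logRatio K M ^ 2)
        fun c _ => ?_).trans_eq (by simp [nsmul_eq_mul])
      simp only [e, profile, Sum.map_inr, Sum.elim_inr, Move.eF_fst, if_pos hcq]
      refine logProfile_energy hKM hK _ (fun jk => (m.eF (cq, jk, c)).2.1) fun jk _ => ?_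
      simp only [Move.eF]
      split_ifs with h
      · have hb := m.fw_le (cq.2 ⟨jk, h⟩) c
        simp only [Small] at hb
        simp only [latNorm, Prod.fst_add, Prod.snd_add]
        omega
      · exact ⟨Nat.le_add_right _ _, Nat.le_add_right _ _⟩
  -- the shear
  set κ := F.shearSet m (2 * N + R) H coef with hκ
  have hκ1 : ∀ A, ∀ i ∈ κ A, i ∈ S ∧ F.profile N K M i = 1 := by
    intro A i hi
    obtain ⟨z, hz, rfl⟩ := F.mem_shearSet m _ _ _ A hi
    obtain ⟨hne, h1, h2⟩ := F.mem_zone.1 hz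
    have hn : latNorm z.2.1 ≤ K := by simp only [latNorm]; omega
    refine ⟨F.inr_mem_carrier.2 ⟨F.mem_qset.2 hne, by omega⟩, ?_⟩
    simp [profile, F.mem_qset.2 hne, logProfile_one hKM hn]
  have hκ2 : ∀ A, κ (A ∆ κ A) = κ A := fun A => by
    refine F.shearSet_symmDiff m _ _ _ A _ fun i hi => ?_
    obtain ⟨z, -, hz⟩ := F.mem_shearSet m _ _ _ A hi
    exact ⟨z, hz⟩
  refine norm1_push_le F.total (fun u => u ∘ m.g.symm) S κ (fun i => (F.profile_mem N K M i).1)
    (fun i => (F.profile_mem N K M i).2) (F.profile_eq_zero hKM R) hinj hsupp hE hκ1 hκ2 ?_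
  intro A hA
  rw [F.total_symmDiff]
  funext p
  simp only [total, Function.comp_apply, Finset.sum_apply, Pi.add_apply]
  rw [sum_image (hinj.mono hA)]
  set B := (F.boxB (n := n) (2 * N + R)).filter fun i => Sum.inl (m.eB i) ∈ A.image e
  have hB : B = A.toLeft := by
    ext i
    simp only [B, mem_filter, mem_image, mem_toLeft]
    constructor
    · rintro ⟨hi, j, hj, hj'⟩
      have := hinj (hA hj) (F.inl_mem_carrier.2 (F.mem_boxB.1 hi)) hj'
      rwa [← this]
    · intro hi
      exact ⟨F.mem_boxB.2 (F.inl_mem_carrier.1 (hA hi)), _, hi, rfl⟩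
  rw [hκ, sum_shearSet, sum_congr (s₂ := A.toLeft) (by rw [← hB]) fun i _ => rfl]
  conv_lhs => rw [← toLeft_disjSum_toRight (u := A)]
  conv_rhs => arg 1; rw [← toLeft_disjSum_toRight (u := A)]
  simp only [sum_disjSum, cell, e, Sum.map_inl, Sum.map_inr, Sum.elim_inl, Sum.elim_inr]
  rw [sum_congr rfl fun i hi => hcoef i (F.inl_mem_carrier.1 (hA (mem_toLeft.1 hi))) p,
    sum_add_distrib, sum_congr rfl fun i hi => m.cellF_image (hsmall (hA (mem_toRight.1 hi)))
      (by omega) p]
  ring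

/-- The law is invariant under adding a banded function of low height. -/
theorem norm1_law_add {N K M R H : ℕ} (hN : 0 < N) (hHN : H ≤ N)
    (hD : 8 * H ≤ F.D) (hK' : 2 * H + F.C₀ * F.W ≤ K) (hKM : K < M) (hKD : K ≤ F.D)
    (Ψ : α → ZMod F.W' → F.BIdx n → ZMod 2) (hΨ : ∀ a al al' i, Ψ a al i = Ψ a al' i) :
    norm1 ((F.law (n := n) N K M R).mapDomain (fun u => u + F.banded H Ψ) - F.law N K M R)
      ≤ 0 := by
  classical
  set S := F.carrier (n := n) N M R with hS
  set G : F.BIdx n → ZMod 2 := fun i => Ψ (F.fgen i.1 i.2.1 i.2.2.1) 0 i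
  obtain ⟨coef, hcoef⟩ := F.banded_eq (n := n) hD (by omega) Ψ G fun p _ _ _ hfp => by
    simp only [G, ← hfp]
    exact hΨ _ _ _ _
  set B : Finset (F.Cell n) :=
    ((F.boxB H).filter fun i => G i = 1).disjSum
      ((F.zone H).filter fun z => coef z = 1)
  have hB : ∀ i ∈ B, i ∈ S ∧ F.profile N K M i = 1 := by
    intro i hi
    simp only [B, mem_disjSum, mem_filter] at hi
    rcases hi with ⟨i, ⟨hi, -⟩, rfl⟩ | ⟨z, ⟨hz, -⟩, rfl⟩
    · have h := F.mem_boxB.1 hi
      exact ⟨F.inl_mem_carrier.2 (by omega), ramp_one hN (by omega)⟩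
    · obtain ⟨hne, h1, h2⟩ := F.mem_zone.1 hz
      have hn : latNorm z.2.1 ≤ K := by simp only [latNorm]; omega
      refine ⟨F.inr_mem_carrier.2 ⟨F.mem_qset.2 hne, by omega⟩, ?_⟩
      simp [profile, F.mem_qset.2 hne, logProfile_one hKM hn]
  have htot : F.total B = F.banded H Ψ := by
    funext p
    rw [hcoef p]
    simp only [total, B, sum_disjSum, cell, Sum.elim_inl, Sum.elim_inr,
      Finset.sum_apply, sum_filter]
    simp only [zmod_two_ite]
  have h := norm1_push_le F.total (fun u => u + F.banded H Ψ) S (e := id) (e' := id) (fun _ => B)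
    (fun i => (F.profile_mem N K M i).1) (fun i => (F.profile_mem N K M i).2)
    (F.profile_eq_zero hKM R) (Set.injOn_id _) (fun i hi => ⟨by
      by_contra h
      exact hi (F.profile_eq_zero hKM R i h), rfl⟩) (E := 0) (by simp) (fun _ => hB) (fun _ => rfl)
    (fun A _ => by rw [image_id, F.total_symmDiff, htot])
  simpa [law] using h

end Frame

end Vale.Agent.P196.Full.Law
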