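import Vale.Agent.P196.Full.Amenable.Lamps
import Vale.Agent.P196.Full.Amenable.Law.Invariant

/-!
# P196: the row geometry of a sparse tower

The frame of one level of a tower along an axis, the conversion of functions with values in
`ZMod 2` to sets, and the fact that sums of cells are lamps.
-/

open Finset

namespace Vale.Agent.P196.Full.Law

open Tower (cdist)

variable {X : Type} [TopologicalSpace X] {n : ℕ} {α : Type}

theorem axisVec_add (ax : Bool) (u v : Lat) :
    axisVec ax (u + v).1 (u + v).2 = axisVec ax u.1 u.2 + axisVec ax v.1 v.2 := by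
  cases ax <;> rfl

theorem axisVec_zero (ax : Bool) : axisVec ax 0 0 = 0 := by cases ax <;> rfl

/-- The data needed to build a frame from a tower at one level. -/
structure Ctx {S : Sys X} (T : Tower S) (ax : Bool) (f : X → α) (m C₀ : ℕ) where
  big : 128 * (C₀ + 4) * T.W m ≤ T.W (m + 1)
  periodic : ∀ x ∈ T.fault ax, ∀ x' ∈ T.fault ax, ∀ k : ℤ, k.natAbs ≤ T.reach m →
    T.along ax m x = T.along ax m x' →
    ((T.along ax (m + 1) x).val < T.W (m + 1) / 2 ↔
      (T.along ax (m + 1) x').val < T.W (m + 1) / 2) →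
    (∀ c, 2 * k.natAbs + C₀ * T.W m < cdist (T.along ax (m + 1) x) (T.centre c m)) →
    (∀ c, 2 * k.natAbs + C₀ * T.W m < cdist (T.along ax (m + 1) x') (T.centre c m)) →
    f (S.sh (axisVec ax 0 k) x) = f (S.sh (axisVec ax 0 k) x')
  one_le : 1 ≤ C₀
  /-- A point of the fault line. -/
  base : X
  base_mem : base ∈ T.fault ax

variable {S : Sys X} {T : Tower S} {ax : Bool} {f : X → α} {m C₀ : ℕ}

/-- The int whose phase is a centre. -/
def ctrInt (T : Tower S) (m : ℕ) (c : Bool) : ℤ := if c then ((T.W (m + 1) / 2 : ℕ) : ℤ) else 0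

theorem centre_eq (c : Bool) : T.centre c m = ((ctrInt T m c : ℤ) : ZMod (T.W (m + 1))) := by
  cases c <;> simp only [Tower.centre, ctrInt, if_true, Bool.false_eq_true, if_false,
    Int.cast_natCast, Int.cast_zero]

/-- Quarter points, on the right and on the left of the middle. -/
def quarter (T : Tower S) (m : ℕ) : Bool → ℕ
  | true => T.W (m + 1) / 4
  | false => T.W (m + 1) - T.W (m + 1) / 4

theorem along_gen (b : Bool) (x : X) :
    T.along ax (m + 1) (S.sh (axisVec ax (((((quarter T m b : ℕ) : ZMod (T.W (m + 1)))) -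
      T.along ax (m + 1) x).val : ℤ) 0) x) = (quarter T m b : ℕ) := by
  have : NeZero (T.W (m + 1)) := ⟨(T.W_pos _).ne'⟩
  rw [T.along_sh, vAlong_axisVec, Int.cast_natCast, ZMod.natCast_zmod_val, add_sub_cancel]

/-- Far from both channels a small shift stays on the same side. -/
theorem half_stable_aux {W : ℕ} (hW : 0 < W) {a : ZMod W} {j : ℤ}
    (h : ∀ c : Bool, j.natAbs <
      (a - (((if c then ((W / 2 : ℕ) : ℤ) else 0) : ℤ) : ZMod W)).valMinAbs.natAbs) :
    decide ((a + (j : ZMod W)).val < W / 2) = decide (a.val < W / 2) := by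
  have : NeZero W := ⟨hW.ne'⟩
  have h0 := h false
  have h1 := h true
  simp only [Bool.false_eq_true, if_false, if_true, Int.cast_zero, sub_zero, Int.cast_natCast]
    at h0 h1
  have hv := ZMod.val_lt a
  have hd0 : j.natAbs < a.val ∧ a.val + j.natAbs < W := by
    rw [ZMod.valMinAbs_natAbs_eq_min] at h0
    omega
  have hd1 : j.natAbs < ((a.val : ℤ) - (W / 2 : ℕ)).natAbs := by
    refine lt_of_lt_of_le h1 ?_
    refine ZMod.natAbs_min_of_le_div_two W _ _ ?_ (ZMod.natAbs_valMinAbs_le _)
    rw [ZMod.coe_valMinAbs, Int.cast_sub, Int.cast_natCast, Int.cast_natCast,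
      ZMod.natCast_zmod_val]
  have hsum : (a + (j : ZMod W)).val = ((a.val : ℤ) + j).toNat := by
    have e : (a + (j : ZMod W)) = (((a.val : ℤ) + j).toNat : ℕ) := by
      rw [← Int.cast_natCast ((a.val : ℤ) + j).toNat, Int.toNat_of_nonneg (by omega), Int.cast_add,
        Int.cast_natCast, ZMod.natCast_zmod_val]
    rw [e, ZMod.val_natCast_of_lt (by omega)]
  rw [hsum]
  exact decide_eq_decide.2 (by omega)

/-- The frame of one level. -/
def Ctx.frame (h : Ctx T ax f m C₀) : Frame X α where
  sh u x := S.sh (axisVec ax u.1 u.2) x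
  sh_zero x := by simp [axisVec_zero, S.sh_zero]
  sh_add u v x := by rw [axisVec_add, S.sh_add]
  W := T.W m
  W' := T.W (m + 1)
  W_pos := T.W_pos m
  dvd := T.W_dvd m
  fault := T.fault ax
  fault_along x hx j M := by
    rw [T.across_sh, hx M, vAcross_axisVec, Int.cast_zero, add_zero]
  fault_across x hx k hk := T.int_eq_of_forall fun M => by
    have e : T.across ax M (S.sh (axisVec ax 0 k) x) = 0 := hk M
    rw [T.across_sh, hx M, vAcross_axisVec, zero_add] at e
    rw [e, Int.cast_zero]
  al := T.along ax (m + 1)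
  al_sh v x := by rw [T.along_sh, vAlong_axisVec]
  ctr c := T.centre c m
  f := f
  D := T.reach m
  C₀ := C₀
  sep c c' i j hi hj he := by
    simp only [centre_eq, ← Int.cast_add] at he
    rw [ZMod.intCast_eq_intCast_iff_dvd_sub] at he
    have hW : 8 ≤ T.W (m + 1) := by
      have h1 := h.big
      have h2 := T.W_pos m
      nlinarith
    have hlt : (ctrInt T m c' + j - (ctrInt T m c + i)).natAbs < T.W (m + 1) := by
      cases c <;> cases c' <;> simp only [ctrInt, Tower.reach, Bool.false_eq_true, if_true,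
        if_false] at hi hj ⊢ <;> omega
    have h0 : ctrInt T m c' + j - (ctrInt T m c + i) = 0 := by
      by_contra hne
      have := Nat.le_of_dvd (Int.natAbs_pos.2 hne) (Int.natCast_dvd.1 he)
      omega
    cases c <;> cases c' <;> simp only [ctrInt, Tower.reach, Bool.false_eq_true, if_true,
      if_false] at hi hj h0 <;> refine ⟨?_, by omega⟩ <;> first | rfl | omega
  half a := decide (a.val < T.W (m + 1) / 2)
  half_stable a j hj := half_stable_aux (T.W_pos (m + 1)) (fun c => by
    have := hj c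
    simp only [cdist, centre_eq] at this
    exact this)
  one_le_C₀ := h.one_le
  periodic x hx x' hx' k hk e e' h1 h2 := by
    refine h.periodic x hx x' hx' k hk ?_ (decide_eq_decide.1 e') h1 h2
    simp only [ZMod.castHom_apply] at e
    exact (T.along_succ ax m x).symm.trans (e.trans (T.along_succ ax m x'))
  gen b := S.sh (axisVec ax (((((quarter T m b : ℕ) : ZMod (T.W (m + 1)))) -
    T.along ax (m + 1) h.base).val : ℤ) 0) h.base
  gen_mem b M := by
    rw [T.across_sh, h.base_mem M, vAcross_axisVec, Int.cast_zero, add_zero]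
  gen_half b j hj := by
    have : NeZero (T.W (m + 1)) := ⟨(T.W_pos _).ne'⟩
    rw [T.along_sh, vAlong_axisVec, along_gen]
    have hb := h.big
    rw [mul_assoc, add_mul] at hb
    have hp := T.W_pos m
    have ee : ((quarter T m b : ℕ) : ZMod (T.W (m + 1))) + (j : ZMod (T.W (m + 1))) =
        ((((quarter T m b : ℕ) : ℤ) + j).toNat : ℕ) := by
      rw [← Int.cast_natCast (((quarter T m b : ℕ) : ℤ) + j).toNat,
        Int.toNat_of_nonneg (by cases b <;> simp only [quarter] <;> omega), Int.cast_add,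
        Int.cast_natCast]
    rw [ee, ZMod.val_natCast_of_lt (by cases b <;> simp only [quarter] <;> omega)]
    cases b
    · exact decide_eq_false (by simp only [quarter]; omega)
    · exact decide_eq_true (by simp only [quarter]; omega)
  gen_far b j k c hj _ hk := by
    have : NeZero (T.W (m + 1)) := ⟨(T.W_pos _).ne'⟩
    simp only [T.along_sh, vAlong_axisVec, cdist, centre_eq]
    rw [Int.cast_natCast, ZMod.natCast_zmod_val, add_sub_cancel]
    have hb := h.big
    rw [mul_assoc, add_mul] at hb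
    have hp := T.W_pos m
    simp only [Tower.reach] at hk
    have ee : ((quarter T m b : ℕ) : ZMod (T.W (m + 1))) + (j : ZMod (T.W (m + 1))) -
        (ctrInt T m c : ZMod (T.W (m + 1))) =
        ((((quarter T m b : ℕ) : ℤ) + j - ctrInt T m c : ℤ) : ZMod (T.W (m + 1))) := by
      simp only [Int.cast_sub, Int.cast_add, Int.cast_natCast]
    rw [ee]
    cases b <;> cases c <;> simp only [quarter, ctrInt, Bool.false_eq_true, if_true, if_false]
    · -- the right side seen from the left channel
      rw [show (((T.W (m + 1) - T.W (m + 1) / 4 : ℕ) : ℤ) + j - 0 : ℤ) =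
        ((T.W (m + 1) : ℕ) : ℤ) + (j - ((T.W (m + 1) / 4 : ℕ) : ℤ)) by omega, Int.cast_add,
        Int.cast_natCast, ZMod.natCast_self, zero_add, T.valMinAbs_intCast] <;> omega
    all_goals rw [T.valMinAbs_intCast] <;> omega

theorem Ctx.atLev_iff (h : Ctx T ax f m C₀) (x : X) (k : ℤ) :
    h.frame.AtLev x k ↔ ∀ M, T.across ax M x = (k : ZMod (T.W M)) :=
  T.mem_fault_translate_iff ax k x

/-- The set where a function is one. -/
def supp (u : Pt X n → ZMod 2) : Set (Pt X n) := {p | u p = 1}

omit [TopologicalSpace X] in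
theorem supp_zero : supp (0 : Pt X n → ZMod 2) = ∅ := by
  ext p
  simp [supp]

lemma zmod_two_xor : ∀ a b : ZMod 2, a + b = 1 ↔ ((a = 1 ∧ b ≠ 1) ∨ (b = 1 ∧ a ≠ 1)) := by decide

omit [TopologicalSpace X] in
theorem supp_add (u v : Pt X n → ZMod 2) : supp (u + v) = symmDiff (supp u) (supp v) := by
  ext p
  exact zmod_two_xor _ _

omit [TopologicalSpace X] in
theorem image_supp (g : Equiv.Perm (Pt X n)) (u : Pt X n → ZMod 2) :
    g '' supp u = supp (u ∘ g.symm) := by
  rw [Equiv.image_eq_preimage_symm]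
  rfl

theorem isClopen_fibre {Y β : Type*} [TopologicalSpace Y] {F : Y → β} (hF : IsLocallyConstant F)
    (b : β) : IsClopen {y | F y = b} :=
  ⟨hF.isClosed_fiber b, hF.isOpen_fiber b⟩

variable {hf : IsLocallyConstant f}

theorem Ctx.lamp_cellB (h : Ctx T ax f m C₀) (i : h.frame.BIdx n) :
    T.IsLamp ax (supp (h.frame.cellB i)) := by
  classical
  obtain ⟨b, a, k, c⟩ := i
  obtain ⟨M, -, hM⟩ := T.exists_W_gt (2 * k.natAbs) 0
  refine ⟨k.natAbs, {p | ((h.frame.half (h.frame.al p.1), h.frame.sm p.1), T.near ax M p, p.2) =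
      ((b, a), k, c)},
    isClopen_fibre ((((T.isLocallyConstant_along ax (m + 1)).comp fun z =>
      (h.frame.half z, ZMod.castHom (T.W_dvd m) (ZMod (T.W m)) z)).comp_continuous
        continuous_fst).prodMk
      ((T.isLocallyConstant_near ax M).prodMk
        ((IsLocallyConstant.iff_continuous _).2 continuous_snd))) _, ?_⟩
  ext p
  simp only [supp, Frame.cellB, Set.mem_ofPred_eq, Set.mem_inter_iff, ite_eq_left_iff, zero_ne_one,
    imp_false, not_not, Frame.idx, Prod.mk.injEq]
  constructor
  · rintro ⟨⟨l, hl⟩, h0, h1, h2, h3⟩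
    rw [Frame.lev_eq _ hl] at h2
    subst h2
    rw [h.atLev_iff] at hl
    exact ⟨⟨⟨h0, h1⟩, T.near_eq (hl M) hM, h3⟩, (T.mem_band_iff ax _ p).2 ⟨l, le_rfl, hl⟩⟩
  · rintro ⟨⟨⟨h0, h1⟩, h2, h3⟩, hb⟩
    obtain ⟨l, hl, hlp⟩ := (T.mem_band_iff ax _ p).1 hb
    rw [T.near_eq (hlp M) (by omega)] at h2
    subst h2
    have := (h.atLev_iff p.1 l).2 hlp
    exact ⟨⟨l, this⟩, h0, h1, Frame.lev_eq _ this, h3⟩

theorem Ctx.lamp_cellF (h : Ctx T ax f m C₀) (hf : IsLocallyConstant f) (i : h.frame.FIdx n) :
    T.IsLamp ax (supp (h.frame.cellF i)) := by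
  classical
  obtain ⟨⟨ch, q⟩, ⟨j, k⟩, c⟩ := i
  obtain ⟨M, -, hM⟩ := T.exists_W_gt (2 * k.natAbs) 0
  have hpat : IsLocallyConstant (h.frame.pat) := by
    rw [IsLocallyConstant.iff_eventually_eq]
    intro x
    refine (Filter.eventually_all.2 fun jk : ↥h.frame.sq =>
      (hf.comp_continuous (S.sh (axisVec ax jk.1.1 jk.1.2)).continuous).eventually_eq x).mono ?_
    exact fun y hy => funext hy
  have hsh : Continuous fun p : Pt X n => S.sh (axisVec ax (-j) (-k)) p.1 :=
    (S.sh _).continuous.comp continuous_fst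
  refine ⟨k.natAbs, {p | (p.2, T.near ax M p,
      T.along ax (m + 1) (S.sh (axisVec ax (-j) (-k)) p.1),
      h.frame.pat (S.sh (axisVec ax (-j) (-k)) p.1)) = (c, k, T.centre ch m, q)},
    isClopen_fibre (((IsLocallyConstant.iff_continuous _).2 continuous_snd).prodMk
      ((T.isLocallyConstant_near ax M).prodMk
        (((T.isLocallyConstant_along ax (m + 1)).comp_continuous hsh).prodMk
          (hpat.comp_continuous hsh)))) _, ?_⟩
  ext p
  simp only [supp, Frame.cellF, Set.mem_ofPred_eq, Set.mem_inter_iff, ite_eq_left_iff, zero_ne_one,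
    imp_false, not_not, Prod.mk.injEq]
  constructor
  · intro hp
    obtain ⟨h1, -, h2, h3⟩ := id hp
    have hl := (h.atLev_iff _ _).1 hp.atLev
    exact ⟨⟨h1, T.near_eq (hl M) hM, h2, h3⟩, (T.mem_band_iff ax _ p).2 ⟨k, le_rfl, hl⟩⟩
  · rintro ⟨⟨h1, h2, h3, h4⟩, hb⟩
    obtain ⟨l, hl, hlp⟩ := (T.mem_band_iff ax _ p).1 hb
    rw [T.near_eq (hlp M) (by omega)] at h2
    subst h2
    refine ⟨h1, ?_, h3, h4⟩
    have := h.frame.fault_along _ ((h.atLev_iff p.1 l).2 hlp) (-j)
    rw [h.frame.sh_sh] at this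
    convert this using 2
    ext <;> simp

theorem Ctx.lamp_total (h : Ctx T ax f m C₀) (hf : IsLocallyConstant f)
    (A : Finset (h.frame.Cell n)) : T.IsLamp ax (supp (h.frame.total A)) := by
  classical
  induction A using Finset.induction_on with
  | empty =>
    simp only [Frame.total, Finset.sum_empty, supp_zero]
    exact T.isLamp_empty ax
  | insert i A hi ih =>
    simp only [Frame.total, Finset.sum_insert hi, supp_add]
    refine Tower.IsLamp.symmDiff T ?_ ih
    rcases i with i | i
    · exact h.lamp_cellB i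
    · exact h.lamp_cellF hf i

end Vale.Agent.P196.Full.Law
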